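import Vale.Agent.P027.Q.Ord

/-! The order of `P0` modulo `q` is at most `2 q + 4`. -/

set_option linter.all false

namespace Vale.Agent.P027.Q

open Vale.Agent.P027

lemma res_rat {q : ℕ} [hq : Fact q.Prime] {r r' : ℚ} (h : padicNorm q r ≤ 1)
    (h' : padicNorm q r' ≤ 1)
    (e : (r.num : ZMod q) / (r.den : ZMod q) = (r'.num : ZMod q) / (r'.den : ZMod q)) :
    padicNorm q (r - r') < 1 := by
  have hd : ∀ t : ℚ, padicNorm q t ≤ 1 → ¬ q ∣ t.den := by
    intro t ht
    by_cases h0 : t = 0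
    · subst h0
      rw [Rat.den_zero]
      intro h1
      exact hq.out.one_lt.ne' (Nat.dvd_one.1 h1)
    · exact odd_den (pn_le_one_iff.1 ht)
  have hr := hd r h
  have hr' := hd r' h'
  have z : ((r.den : ℕ) : ZMod q) ≠ 0 := by rwa [Ne, ZMod.natCast_eq_zero_iff]
  have z' : ((r'.den : ℕ) : ZMod q) ≠ 0 := by rwa [Ne, ZMod.natCast_eq_zero_iff]
  rw [div_eq_div_iff z z'] at e
  have h1 : (((r.num * r'.den - r'.num * r.den : ℤ)) : ZMod q) = 0 := by
    push_cast
    rw [e, sub_self]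
  rw [ZMod.intCast_zmod_eq_zero_iff_dvd] at h1
  have n1 : padicNorm q ((r.num * r'.den - r'.num * r.den : ℤ) : ℚ) < 1 :=
    (padicNorm.int_lt_one_iff _).2 h1
  have nd : padicNorm q ((r.den : ℕ) : ℚ) = 1 := (padicNorm.nat_eq_one_iff _).2 hr
  have nd' : padicNorm q ((r'.den : ℕ) : ℚ) = 1 := (padicNorm.nat_eq_one_iff _).2 hr'
  have e1 : r - r' = ((r.num * r'.den - r'.num * r.den : ℤ) : ℚ) /
      (((r.den : ℕ) : ℚ) * ((r'.den : ℕ) : ℚ)) := by
    have hz : ((r.den : ℕ) : ℚ) ≠ 0 := by exact_mod_cast r.den_ne_zero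
    have hz' : ((r'.den : ℕ) : ℚ) ≠ 0 := by exact_mod_cast r'.den_ne_zero
    rw [eq_div_iff (mul_ne_zero hz hz')]
    have e2 : r * r.den = r.num := Rat.mul_den_eq_num r
    have e3 : r' * r'.den = r'.num := Rat.mul_den_eq_num r'
    push_cast
    rw [← e2, ← e3]
    ring
  rw [e1, padicNorm.div, padicNorm.mul, nd, nd']
  simpa using n1

theorem ord_le {q m : ℕ} (hq : q.Prime) (h : Ord q m) : m ≤ 2 * q + 4 := by
  have : Fact q.Prime := ⟨hq⟩
  by_cases hq2 : q = 2
  · subst hq2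
    have h1 : Dv 2 8 := by
      right
      rw [xc_of_hasX hasX_8]
      have h1 : (529 / 784 : ℚ) = ((529 : ℕ) : ℚ) / (((49 : ℕ) : ℚ) * ((2 : ℕ) : ℚ) ^ 4) := by
        norm_num
      rw [h1, padicValRat.div (by norm_num) (by norm_num),
        padicValRat.mul (by norm_num) (by norm_num),
        padicValRat.pow, vself (by norm_num), vnat_zero (by norm_num),
        vnat_zero (by norm_num)]
      norm_num
    have h2 := (h.2 _).1 h1
    have h3 : m ∣ 8 := by exact_mod_cast h2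
    have := Nat.le_of_dvd (by norm_num) h3
    omega
  by_cases hq7 : q = 7
  · subst hq7
    have h1 : Dv 7 8 := by
      right
      have := val_eight
      norm_num at this ⊢
      rw [this]
      norm_num
    have h2 := (h.2 _).1 h1
    have h3 : m ∣ 8 := by exact_mod_cast h2
    have := Nat.le_of_dvd (by norm_num) h3
    omega
  by_contra hcon
  push Not at hcon
  have hnd : ∀ k : ℤ, 0 < k → k < m → ¬ Dv q k := by
    intro k h0 h1 h2
    have h3 := Int.le_of_dvd h0 ((h.2 k).1 h2)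
    omega
  have hle : ∀ k : ℤ, 0 < k → k < m → padicNorm q (xc (k • P0)) ≤ 1 := by
    intro k h0 h1
    by_contra hc
    push Not at hc
    exact hnd k h0 h1 (Or.inr (val_neg_of_norm_gt q hc).2)
  let f : Fin (q + 1) → ZMod q := fun i =>
    ((xc (((i : ℕ) + 1 : ℤ) • P0)).num : ZMod q) / ((xc (((i : ℕ) + 1 : ℤ) • P0)).den : ZMod q)
  have hNe : NeZero q := ⟨hq.ne_zero⟩
  obtain ⟨i, j, hij, hf⟩ := Fintype.exists_ne_map_eq_of_card_lt f
    (by rw [ZMod.card, Fintype.card_fin]; omega)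
  have key : ∀ i j : Fin (q + 1), (i : ℕ) < j → f i = f j → False := by
    intro i j hlt hf
    have hi := i.2
    have hj := j.2
    have n1 := hle ((i : ℕ) + 1 : ℤ) (by omega) (by omega)
    have n2 := hle ((j : ℕ) + 1 : ℤ) (by omega) (by omega)
    have h1 := res_rat n1 n2 hf
    have h2 := res_ne hq hq2 hq7 (i := ((i : ℕ) + 1 : ℤ)) (j := ((j : ℕ) + 1 : ℤ)) (by omega)
      (by omega) (hnd _ (by omega) (by omega)) (hnd _ (by omega) (by omega))
      (hnd _ (by omega) (by omega)) (hnd _ (by omega) (by omega))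
    linarith
  rcases lt_or_gt_of_ne (fun h => hij (Fin.ext h) : (i : ℕ) ≠ j) with h1 | h1
  · exact key i j h1 hf
  · exact key j i h1 hf.symm

end Vale.Agent.P027.Q
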