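import Vale.Agent.P027.Q.Desc

/-! Every rational point of the curve is `k P0` or `k P0 + T0`. -/

set_option linter.all false

namespace Vale.Agent.P027.Q

theorem pt_eq_or {x y y' : ℚ} (h : y ^ 2 = x ^ 3 + 10 * x ^ 2 - 7 * x)
    (h' : y' ^ 2 = x ^ 3 + 10 * x ^ 2 - 7 * x) :
    pt x y h = pt x y' h' ∨ pt x y h = -pt x y' h' :=
  HasX.eq_or_neg ⟨y, h, rfl⟩ ⟨y', h', rfl⟩

theorem even_of_dbl {x y x' y' : ℚ} (h : y ^ 2 = x ^ 3 + 10 * x ^ 2 - 7 * x)
    (h' : y' ^ 2 = x' ^ 3 + 10 * x' ^ 2 - 7 * x')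
    (hy' : y' ≠ 0) (hx : x * (4 * y' ^ 2) = (x' ^ 2 + 7) ^ 2) {k : ℤ} (hk : pt x' y' h' = k • P0) :
    ∃ k : ℤ, pt x y h = (2 * k) • P0 := by
  obtain ⟨Y, h'', e⟩ := hasX_double h' hy'
  obtain ⟨X, hX⟩ : ∃ X, X = ((x' ^ 2 + 7) / (2 * y')) ^ 2 := ⟨_, rfl⟩
  rw [← hX] at h''
  replace e : pt x' y' h' + pt x' y' h' = pt X Y h'' := e.trans (pt_congr hX.symm rfl)
  have hXx : X = x := by
    have h1 : X * (4 * y' ^ 2) = (x' ^ 2 + 7) ^ 2 := by
      rw [hX]
      field_simp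
      ring
    have h2 : (4 * y' ^ 2) ≠ 0 := by positivity
    exact mul_right_cancel₀ h2 (h1.trans hx.symm)
  subst hXx
  rcases pt_eq_or h h'' with h1 | h1
  · refine ⟨k, ?_⟩
    rw [h1, ← e, hk, ← add_zsmul]; congr 1; ring
  · refine ⟨-k, ?_⟩
    rw [h1, ← e, hk, ← add_zsmul, ← neg_zsmul]; congr 1; ring

theorem sq_of_point {r w : ℕ} (hr : 0 < r) (hw : 0 < w) {X Y : ℚ}
    (h : Y ^ 2 = X ^ 3 + 10 * X ^ 2 - 7 * X)
    (hX : X = (r : ℚ) ^ 2 / (w : ℚ) ^ 2) :
    ∃ s : ℕ, s ^ 2 + 7 * w ^ 4 = r ^ 4 + 10 * r ^ 2 * w ^ 2 := by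
  have hr' : (r : ℚ) ≠ 0 := by positivity
  have hw' : (w : ℚ) ≠ 0 := by positivity
  have h1 : (((r : ℤ) ^ 4 + 10 * (r : ℤ) ^ 2 * (w : ℤ) ^ 2 - 7 * (w : ℤ) ^ 4 : ℤ) : ℚ) =
      (Y * w ^ 3 / r) * (Y * w ^ 3 / r) := by
    push_cast
    field_simp
    rw [h, hX]
    field_simp
  have h2 : IsSquare (((r : ℤ) ^ 4 + 10 * (r : ℤ) ^ 2 * (w : ℤ) ^ 2 - 7 * (w : ℤ) ^ 4 : ℤ) : ℚ) :=
    ⟨_, h1⟩
  rw [Rat.isSquare_intCast_iff] at h2
  obtain ⟨t, ht⟩ := h2
  refine ⟨t.natAbs, ?_⟩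
  have h3 : ((t.natAbs ^ 2 + 7 * w ^ 4 : ℕ) : ℤ) = ((r ^ 4 + 10 * r ^ 2 * w ^ 2 : ℕ) : ℤ) := by
    push_cast
    rw [sq_abs]
    linarith
  exact_mod_cast h3

/-- small cases -/
lemma small_d {c d t : ℕ} (hcd : Nat.Coprime c d) (hne : c ≠ d) (hd : 0 < d) (hc : 0 < c)
    (h : t ^ 2 + c ^ 4 = 7 * d ^ 4 + 10 * c ^ 2 * d ^ 2) (hd3 : d < 3) : c = 3 ∧ d = 1 ∧ t = 4 := by
  have hd' : d = 1 ∨ d = 2 := by omega
  rcases hd' with rfl | rfl
  · have hc4 : c < 4 := by
      by_contra hcon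
      have h1 : 4 ≤ c := by omega
      have h2 : 16 ≤ c ^ 2 := by nlinarith
      nlinarith [sq_nonneg t]
    interval_cases c
    · exact absurd rfl hne
    · have h1 : t ^ 2 = 31 := by omega
      have h2 : t < 6 := by nlinarith
      interval_cases t <;> omega
    · have h1 : t ^ 2 = 16 := by omega
      have h2 : t < 5 := by nlinarith
      interval_cases t <;> omega
  · have hc7 : c < 7 := by
      by_contra hcon
      have h1 : 7 ≤ c := by omega
      have h2 : 49 ≤ c ^ 2 := by nlinarith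
      nlinarith [sq_nonneg t]
    interval_cases c
    · have h1 : t ^ 2 = 151 := by omega
      have h2 : t < 13 := by nlinarith
      interval_cases t <;> omega
    · exact absurd rfl hne
    · have h1 : t ^ 2 = 391 := by omega
      have h2 : t < 20 := by nlinarith
      interval_cases t <;> omega
    · exact absurd hcd (by decide)
    · have h1 : t ^ 2 = 487 := by omega
      have h2 : t < 23 := by nlinarith
      interval_cases t <;> omega
    · exact absurd hcd (by decide)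

theorem complete_aux (r : ℕ) : ∀ w s : ℕ, Nat.Coprime r w → 0 < r → 0 < w →
    s ^ 2 + 7 * w ^ 4 = r ^ 4 + 10 * r ^ 2 * w ^ 2 →
    ∀ (x y : ℚ) (h : y ^ 2 = x ^ 3 + 10 * x ^ 2 - 7 * x), x = (r : ℚ) ^ 2 / (w : ℚ) ^ 2 →
      ∃ k : ℤ, pt x y h = (2 * k) • P0 := by
  induction r using Nat.strong_induction_on with
  | _ r IH =>
  intro w s hc hr0 hw hrws x y h hx
  obtain ⟨c, d, t, hcd, hrel, hle, hcase⟩ := a_descent hc hr0 hw hrws
  have hpos : 0 < w * (c ^ 4 + 7 * d ^ 4) := by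
    have h1 : 0 < c ^ 4 + 7 * d ^ 4 := by
      rcases Nat.eq_zero_or_pos c with h0 | h0
      · rcases Nat.eq_zero_or_pos d with h0' | h0'
        · subst h0; subst h0'; exact absurd hcd (by decide)
        · positivity
      · positivity
    positivity
  have hpos2 : 0 < r * (2 * c * d * t) := by rw [hrel]; exact hpos
  have hc0 : 0 < c := Nat.pos_of_ne_zero (by rintro rfl; simp at hpos2)
  have hd : 0 < d := Nat.pos_of_ne_zero (by rintro rfl; simp at hpos2)
  have ht : 0 < t := Nat.pos_of_ne_zero (by rintro rfl; simp at hpos2)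
  have htq : (t : ℚ) ≠ 0 := by positivity
  have hcq : (c : ℚ) ≠ 0 := by positivity
  have hdq : (d : ℚ) ≠ 0 := by positivity
  have hwq : (w : ℚ) ≠ 0 := by positivity
  have hrelq : (r : ℚ) * (2 * c * d * t) = w * (c ^ 4 + 7 * d ^ 4) := by exact_mod_cast hrel
  have hy' : (c : ℚ) * t / d ^ 3 ≠ 0 := by positivity
  have hX2 : x * (4 * ((c : ℚ) * t / d ^ 3) ^ 2) = (((c : ℚ) ^ 2 / d ^ 2) ^ 2 + 7) ^ 2 := by
    rw [hx]
    have h1 : (r : ℚ) = w * (c ^ 4 + 7 * d ^ 4) / (2 * c * d * t) := by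
      rw [eq_div_iff (by positivity)]; exact hrelq
    rw [h1]
    field_simp
    ring
  rcases hcase with hA | hB
  · have hAq : (t : ℚ) ^ 2 + 7 * d ^ 4 = c ^ 4 + 10 * c ^ 2 * d ^ 2 := by exact_mod_cast hA
    have hR : ((c : ℚ) * t / d ^ 3) ^ 2 = ((c : ℚ) ^ 2 / d ^ 2) ^ 3 +
        10 * ((c : ℚ) ^ 2 / d ^ 2) ^ 2 - 7 * ((c : ℚ) ^ 2 / d ^ 2) := by
      field_simp
      linear_combination hAq
    have hcr : c < r := by
      by_cases hc1 : c = 1
      · subst hc1
        by_cases hd1 : d = 1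
        · subst hd1
          have h1 : t ^ 2 = 4 := by omega
          have h2 : t = 2 := by
            have : t < 3 := by nlinarith
            interval_cases t <;> omega
          subst h2
          omega
        · have h1 : 2 ≤ d := by omega
          have h2 : 16 ≤ d ^ 4 := by
            calc 16 = 2 ^ 4 := by norm_num
              _ ≤ d ^ 4 := Nat.pow_le_pow_left h1 4
          omega
      · have h1 : 2 ≤ c := by omega
        have h2 : 8 ≤ c ^ 3 := by
          calc 8 = 2 ^ 3 := by norm_num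
            _ ≤ c ^ 3 := Nat.pow_le_pow_left h1 3
        have h3 : 8 * c ≤ c ^ 4 := by
          calc 8 * c ≤ c ^ 3 * c := Nat.mul_le_mul_right c h2
            _ = c ^ 4 := by ring
        have h4 : 0 < d ^ 4 := by positivity
        omega
    obtain ⟨k, hk⟩ := IH c hcr d t hcd hc0 hd hA _ _ hR rfl
    exact even_of_dbl h hR hy' hX2 hk
  · have hBq : (t : ℚ) ^ 2 + c ^ 4 = 7 * d ^ 4 + 10 * c ^ 2 * d ^ 2 := by exact_mod_cast hB
    have hR : ((c : ℚ) * t / d ^ 3) ^ 2 =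
        (-((c : ℚ) ^ 2 / d ^ 2)) ^ 3 + 10 * (-((c : ℚ) ^ 2 / d ^ 2)) ^ 2 -
          7 * (-((c : ℚ) ^ 2 / d ^ 2)) := by
      field_simp
      linear_combination hBq
    have hxR : x * (4 * ((c : ℚ) * t / d ^ 3) ^ 2) = ((-((c : ℚ) ^ 2 / d ^ 2)) ^ 2 + 7) ^ 2 := by
      rw [hX2]; ring
    by_cases hcd1 : c = d
    · subst hcd1
      have hc1 : c = 1 := by simpa using hcd
      subst hc1
      have ht1 : t = 4 := by
        have h1 : t ^ 2 = 16 := by omega
        have : t < 5 := by nlinarith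
        interval_cases t <;> omega
      subst ht1
      refine even_of_dbl (k := 1) h hR hy' hxR ?_
      rw [one_zsmul]
      exact pt_congr (by norm_num) (by norm_num)
    · have hne : ((d : ℚ) ^ 2 - c ^ 2) ≠ 0 := by
        intro h0
        have h1 : (d : ℚ) ^ 2 = (c : ℚ) ^ 2 := by linarith
        have h2 : d ^ 2 = c ^ 2 := by exact_mod_cast h1
        exact hcd1 (Nat.pow_left_injective (by norm_num : (2 : ℕ) ≠ 0) h2).symm
      have hxne : (-((c : ℚ) ^ 2 / d ^ 2)) ≠ -1 := by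
        intro h0
        apply hne
        field_simp at h0
        linarith
      have hadd := hasX_add hR (show (4 : ℚ) ^ 2 = (-1) ^ 3 + 10 * (-1) ^ 2 - 7 * (-1) by norm_num)
        hxne
      obtain ⟨Y, h', e⟩ := hadd
      obtain ⟨X, hX⟩ : ∃ X, X = (((c : ℚ) * t / d ^ 3 - 4) / (-((c : ℚ) ^ 2 / d ^ 2) - -1)) ^ 2 -
        10 - -((c : ℚ) ^ 2 / d ^ 2) - -1 := ⟨_, rfl⟩
      rw [← hX] at h'
      replace e : pt _ _ hR + P0 = pt X Y h' := e.trans (pt_congr hX.symm rfl)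
      have hn : (t : ℚ) + 4 * c * d ≠ 0 := by positivity
      have hX' : X = ((7 * (d : ℚ) ^ 2 + c ^ 2) / (t + 4 * c * d)) ^ 2 := by
        have h5 : X = ((t - 4 * c * d) / (d ^ 2 - c ^ 2)) ^ 2 := by
          rw [hX]
          have h3 : (-((c : ℚ) ^ 2 / d ^ 2)) - -1 = (d ^ 2 - c ^ 2) / d ^ 2 := by
            field_simp
            ring
          rw [h3]
          field_simp
          linear_combination ((c : ℚ) ^ 2 - (d : ℚ) ^ 2) * hBq
        have h6 : (7 * (d : ℚ) ^ 2 + c ^ 2) / (t + 4 * c * d) = (t - 4 * c * d) / (d ^ 2 - c ^ 2) := by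
          rw [div_eq_div_iff hn hne]
          linear_combination -hBq
        rw [h5, h6]
      obtain ⟨g, r', w', hg, hco, hmg, hng⟩ := Nat.exists_coprime' (m := 7 * d ^ 2 + c ^ 2)
        (n := t + 4 * c * d) (Nat.gcd_pos_of_pos_left _ (by positivity))
      have hr'0 : 0 < r' := by
        refine Nat.pos_of_ne_zero ?_
        rintro rfl
        rw [zero_mul] at hmg
        have : 0 < 7 * d ^ 2 + c ^ 2 := by positivity
        omega
      have hw'0 : 0 < w' := by
        refine Nat.pos_of_ne_zero ?_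
        rintro rfl
        rw [zero_mul] at hng
        omega
      have hXrw : X = (r' : ℚ) ^ 2 / (w' : ℚ) ^ 2 := by
        have hm2 : (7 * (d : ℚ) ^ 2 + c ^ 2) = r' * g := by exact_mod_cast hmg
        have hn2 : ((t : ℚ) + 4 * c * d) = w' * g := by exact_mod_cast hng
        rw [hX', hm2, hn2]
        have hgq : (g : ℚ) ≠ 0 := by positivity
        have hwq : (w' : ℚ) ≠ 0 := by positivity
        field_simp
      obtain ⟨s', hs'⟩ := sq_of_point hr'0 hw'0 h' hXrw
      have hlt : r' < r := by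
        by_cases hd3 : d < 3
        · obtain ⟨h1, h2, h3⟩ := small_d hcd hcd1 hd hc0 hB hd3
          subst h1; subst h2; subst h3
          have h4 : r' * g = w' * g := by omega
          have h5 : r' = w' := Nat.eq_of_mul_eq_mul_right hg h4
          rw [h5] at hco
          have h6 : w' = 1 := by simpa using hco
          omega
        · have h8 : r' ≤ 7 * d ^ 2 + c ^ 2 := by rw [hmg]; exact Nat.le_mul_of_pos_right _ hg
          have h9 : 8 * (7 * d ^ 2 + c ^ 2) < c ^ 4 + 7 * d ^ 4 := by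
            have h10 : 9 ≤ d ^ 2 := by nlinarith
            have h11 : 9 * d ^ 2 ≤ d ^ 4 := by
              calc 9 * d ^ 2 ≤ d ^ 2 * d ^ 2 := Nat.mul_le_mul_right _ h10
                _ = d ^ 4 := by ring
            have h12 : 8 * c ^ 2 < c ^ 4 + 17 := by
              have : (8 * (c : ℤ) ^ 2) < (c : ℤ) ^ 4 + 17 := by nlinarith [sq_nonneg ((c : ℤ) ^ 2 - 4)]
              exact_mod_cast this
            omega
          omega
      obtain ⟨k, hk⟩ := IH r' hlt w' s' hco hr'0 hw'0 hs' X Y h' hXrw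
      refine even_of_dbl (k := 2 * k - 1) h hR hy' hxR ?_
      have h20 : pt _ _ hR + P0 = (2 * k) • P0 := e.trans hk
      rw [sub_zsmul, one_zsmul, ← h20]
      abel

/-- a point whose first coordinate is a nonzero square is an even multiple of the generator -/
theorem even_of_sq {V : E.Point} {x s : ℚ} (hV : HasX V x) (hs : s ≠ 0) (hx : x = s ^ 2) :
    ∃ k : ℤ, V = (2 * k) • P0 := by
  obtain ⟨y, h, rfl⟩ := hV
  have hr : 0 < s.num.natAbs := Int.natAbs_pos.2 (Rat.num_ne_zero.2 hs)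
  have hw : 0 < s.den := s.den_pos
  have hX : x = (s.num.natAbs : ℚ) ^ 2 / (s.den : ℚ) ^ 2 := by
    have h1 : ((s.num.natAbs : ℕ) : ℚ) ^ 2 = (s.num : ℚ) ^ 2 := by
      have h2 : (((s.num.natAbs : ℕ) : ℤ) : ℚ) ^ 2 = ((s.num : ℤ) : ℚ) ^ 2 := by
        rw [← Int.cast_pow, ← Int.cast_pow, Int.natCast_natAbs, sq_abs]
      rwa [Int.cast_natCast] at h2
    rw [h1, hx, ← div_pow, Rat.num_div_den]
  obtain ⟨t, ht⟩ := sq_of_point hr hw h hX
  exact complete_aux _ _ _ s.reduced hr hw ht _ _ h hX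

/-- a point whose first coordinate is minus a nonzero square is an odd multiple of the generator -/
theorem odd_of_neg_sq {V : E.Point} {x s : ℚ} (hV : HasX V x) (hs : s ≠ 0) (hx : x = -s ^ 2) :
    ∃ k : ℤ, V = (2 * k + 1) • P0 := by
  obtain ⟨y, h, rfl⟩ := hV
  by_cases hx1 : x = -1
  · subst hx1
    rcases pt_eq_or h (show (4 : ℚ) ^ 2 = (-1) ^ 3 + 10 * (-1) ^ 2 - 7 * (-1) by norm_num) with h1 | h1
    · exact ⟨0, by rw [h1]; simp; rfl⟩
    · refine ⟨-1, ?_⟩
      rw [h1]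
      norm_num
      rfl
  · have hadd := hasX_add h (show (4 : ℚ) ^ 2 = (-1) ^ 3 + 10 * (-1) ^ 2 - 7 * (-1) by norm_num) hx1
    have hx1' : x + 1 ≠ 0 := by
      intro h0; exact hx1 (by linarith)
    have hv : 4 + (y - 4) / (x + 1) ≠ 0 := by
      intro h0
      have h1 : 4 * (x + 1) + (y - 4) = 0 := by
        have : (4 + (y - 4) / (x + 1)) * (x + 1) = 0 := by rw [h0, zero_mul]
        rw [add_mul, div_mul_cancel₀ _ hx1'] at this
        exact this
      have h2 : y = -4 * x := by linarith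
      rw [h2] at h
      have h3 : x * ((x - 7) * (x + 1)) = 0 := by linear_combination -h
      rcases mul_eq_zero.1 h3 with h4 | h4
      · apply hs
        have : s ^ 2 = 0 := by linarith
        exact pow_eq_zero_iff (by norm_num) |>.1 this
      · rcases mul_eq_zero.1 h4 with h5 | h5
        · nlinarith [sq_nonneg s]
        · exact hx1' h5
    have e : ((y - 4) / (x - -1)) ^ 2 - 10 - x - -1 = ((4 + (y - 4) / (x + 1)) / s) ^ 2 := by
      have hs2 : s ^ 2 = -x := by linarith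
      have hx0 : -x ≠ 0 := by rw [← hs2]; positivity
      rw [div_pow (4 + (y - 4) / (x + 1)) s, hs2, sub_neg_eq_add, sub_neg_eq_add, eq_div_iff hx0]
      field_simp
      linear_combination (-x - 1) * h
    obtain ⟨k, hk⟩ := even_of_sq hadd (div_ne_zero hv hs) e
    refine ⟨k - 1, ?_⟩
    have h1 : pt x y h + P0 = (2 * k) • P0 := hk
    have h2 : pt x y h = (2 * k) • P0 - P0 := by rw [← h1]; abel
    rw [h2]
    have e2 : (2 * (k - 1) + 1 : ℤ) = 2 * k - 1 := by ring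
    rw [e2, sub_zsmul, one_zsmul, sub_eq_add_neg]

end Vale.Agent.P027.Q
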