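import Vale.Agent.P027.Q.Grow2
import Vale.Agent.P027.Q.MW
import Vale.Agent.P027.Q.Pt
import Vale.Agent.P027.H123.Main

/-! The formula, its soundness. -/

set_option linter.all false

namespace Vale.Agent.P027.Q

open Vale.Agent.P027

/-- the denominator of `x` divides `den(y)^2 den(z)` in `R` -/
def DenDvdQ (R : Set ℚ) (x y z : ℚ) : Prop :=
  ∃ a ∈ R, ∃ d ∈ R, ∃ u ∈ R, ∃ v ∈ R, ∃ a' ∈ R, ∃ d' ∈ R, ∃ u' ∈ R, ∃ v' ∈ R,
    ∃ a'' ∈ R, ∃ d'' ∈ R, ∃ u'' ∈ R, ∃ v'' ∈ R, ∃ w ∈ R,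
    x * d = a ∧ u * a + v * d = 1 ∧ y * d' = a' ∧ u' * a' + v' * d' = 1 ∧
    z * d'' = a'' ∧ u'' * a'' + v'' * d'' = 1 ∧ d' * d' * d'' = w * d

/-- the formula: `W = n P0`, `V = m P0` with odd `n`, `m`, the seven-adic valuation of `n` is that
of `c`, its three-adic valuation is at least that of `B`, visible primes of the index `7 n` are new
with respect to the index `m`, and the omitted primes that divide the denominator for `7 n` divide
that for `m` or `n` -/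
def Frm (R : Set ℚ) (c B : ℚ) : Prop :=
  (c ≠ 0 ∧ B ≠ 0) ∧ ∃ W V : E.Point, ∃ s t u : ℚ, (s ≠ 0 ∧ t ≠ 0 ∧ u ≠ 0) ∧
    (xc W = -t ^ 2 ∧ xc V = -u ^ 2 ∧ xc (7 • W) = -s ^ 2) ∧
    (0 ≤ padicValRat 7 (49 * (c ^ 2 * xc (8 • W))) ∧
      0 ≤ padicValRat 7 (1 / (49 * (c ^ 2 * xc (8 • W))))) ∧
    0 ≤ padicValRat 3 (1 / (9 * (B ^ 2 * xc (6 • W)))) ∧
    St s (xc (2 • V) / xc (14 • W)) ∧ DenDvdQ R (xc (7 • W)) (xc V) (xc W)

/-- the set of the omitted primes -/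
def KT (Kl : ℕ → ℕ → ℕ → Prop) : Set ℕ :=
  {q | q.Prime ∧ ∃ a N i, Kl a N i ∧ Ord q (Om a N i) ∧
    ∀ q' < q, q'.Prime → ¬ Ord q' (Om a N i)}

/-- the primes that divide the denominator of the coordinate of some odd multiple -/
def DD : Set ℕ := {q | q.Prime ∧ ∃ n : ℕ, n % 2 = 1 ∧ q ∣ (xx n).den}

/-- the class of the sets `R` -/
structure Rg (T : Set ℕ) (R : Set ℚ) : Prop where
  sup : ∀ t : ℚ, (∀ q : ℕ, q.Prime → q ∣ t.den → q ∈ DD ∧ q ∉ T) → t ∈ R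
  sub : ∀ t ∈ R, ∀ q ∈ T, ¬ q ∣ t.den

lemma Rg.int {T : Set ℕ} {R : Set ℚ} (hR : Rg T R) (z : ℤ) : (z : ℚ) ∈ R :=
  hR.sup z (fun q hq h => by
    rw [Rat.den_intCast] at h
    exact absurd (Nat.dvd_one.1 h) hq.one_lt.ne')

theorem denDvdQ_sound {R : Set ℚ} {x y z : ℚ} (h : DenDvdQ R x y z) {q : ℕ} (hq : q.Prime)
    (hR : ∀ t ∈ R, ¬ q ∣ t.den) (hx : q ∣ x.den) : q ∣ y.den ∨ q ∣ z.den := by
  have : Fact q.Prime := ⟨hq⟩
  have hR' : ∀ t ∈ R, padicNorm q t ≤ 1 := fun t ht => (D1.not_dvd_den_iff t).1 (hR t ht)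
  obtain ⟨a, ha, d, hd, u, hu, v, hv, a', ha', d', hd', u', hu', v', hv', a'', ha'', d'', hd'',
    u'', hu'', v'', hv'', w, hw, e1, e2, e3, e4, e5, e6, e7⟩ := h
  rw [D1.dvd_den_iff] at hx ⊢
  rw [D1.dvd_den_iff]
  have n1 : padicNorm q x * padicNorm q d ≤ 1 := by
    rw [← padicNorm.mul, e1]; exact hR' a ha
  have hd1 : padicNorm q d < 1 := by
    by_contra hcon
    push Not at hcon
    have := padicNorm.nonneg (p := q) d
    nlinarith
  have h7 : padicNorm q (d' * d' * d'') < 1 := by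
    rw [e7]
    exact H123.pn_le_one_of (hR' w hw) hd1
  by_cases h8 : padicNorm q d' < 1
  · exact Or.inl (H123.one_lt_of_small (hR' _ hu') (hR' _ hv') (hR' _ ha') e3 e4 h8)
  · right
    refine H123.one_lt_of_small (hR' _ hu'') (hR' _ hv'') (hR' _ ha'') e5 e6 ?_
    push Not at h8
    rw [padicNorm.mul, padicNorm.mul] at h7
    have h2 := padicNorm.nonneg (p := q) d''
    have h3 : 1 ≤ padicNorm q d' * padicNorm q d' := by nlinarith
    nlinarith

theorem denDvdQ_complete {R : Set ℚ} (hZ : ∀ z : ℤ, (z : ℚ) ∈ R) {x y z : ℚ}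
    (h : (y.den : ℚ) * y.den * z.den / x.den ∈ R) : DenDvdQ R x y z := by
  obtain ⟨u, v, huv⟩ := D1.exists_bezout x
  obtain ⟨u', v', huv'⟩ := D1.exists_bezout y
  obtain ⟨u'', v'', huv''⟩ := D1.exists_bezout z
  have hx0 : (x.den : ℚ) ≠ 0 := by exact_mod_cast x.den_ne_zero
  have key : ∀ x : ℚ, x * (((x.den : ℕ) : ℤ) : ℚ) = ((x.num : ℤ) : ℚ) := by
    intro x
    rw [Int.cast_natCast]
    nth_rw 1 [← Rat.num_div_den x]
    exact div_mul_cancel₀ _ (by exact_mod_cast x.den_ne_zero)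
  refine ⟨_, hZ x.num, _, hZ x.den, _, hZ u, _, hZ v, _, hZ y.num, _, hZ y.den, _, hZ u', _,
    hZ v', _, hZ z.num, _, hZ z.den, _, hZ u'', _, hZ v'', _, h, key x, huv, key y, huv', key z,
    huv'', ?_⟩
  push_cast
  field_simp

/-- killers -/
lemma killer_mem {Kl : ℕ → ℕ → ℕ → Prop} {a N i : ℕ} (h : Kl a N i)
    (hex : ∃ q : ℕ, q.Prime ∧ Ord q (Om a N i)) : ∃ q ∈ KT Kl, Ord q (Om a N i) := by
  classical
  obtain ⟨h1, h2⟩ := Nat.find_spec hex
  refine ⟨Nat.find hex, ⟨h1, a, N, i, h, h2, fun q' hq' hp ho => ?_⟩, h2⟩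
  exact Nat.find_min hex hq' ⟨hp, ho⟩

lemma xc_smul_eq {W : E.Point} {n m : ℕ} (h : xc W = xx n) (hn : n ≠ 0) (hW : W ≠ 0) :
    xc (m • W) = xx (m * n) := by
  have h1 : HasX W (xx n) := by rw [← h]; exact hasX_xc hW
  have e : ((m * n : ℕ) : ℤ) • P0 = m • ((n : ℤ) • P0) := by
    rw [← natCast_zsmul, ← mul_zsmul, Nat.cast_mul]
  unfold xx
  rw [e]
  rcases h1.eq_or_neg (hasX_xx hn) with h2 | h2
  · rw [h2]
  · rw [h2, neg_nsmul, xc_neg]

/-- points of odd index -/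
lemma odd_index {W : E.Point} {t : ℚ} (ht : t ≠ 0) (h : xc W = -t ^ 2) :
    W ≠ 0 ∧ ∃ n : ℕ, n % 2 = 1 ∧ xc W = xx n := by
  have hW : W ≠ 0 := by
    rintro rfl
    rw [xc_zero] at h
    have : t ^ 2 = 0 := by linarith
    exact ht (pow_eq_zero_iff (by norm_num) |>.1 this)
  refine ⟨hW, ?_⟩
  have hX := hasX_xc hW
  rw [h] at hX
  obtain ⟨k, hk⟩ := odd_of_neg_sq hX ht rfl
  rcases le_total 0 (2 * k + 1) with h1 | h1
  · refine ⟨(2 * k + 1).toNat, by omega, ?_⟩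
    unfold xx
    rw [Int.toNat_of_nonneg h1, ← hk]
  · refine ⟨(-(2 * k + 1)).toNat, by omega, ?_⟩
    unfold xx
    rw [Int.toNat_of_nonneg (by omega), neg_zsmul, xc_neg, ← hk]

lemma v7_49 : padicValRat 7 49 = 2 := by
  have := H123.v_pow_self 7 2
  norm_num at this
  exact this

lemma vs_ne_seven {n : ℕ} (hn : n ≠ 0) : 7 ∉ Vs n := by
  intro h
  exact inert_ne_seven ((mem_Vs hn).1 h).1 rfl

lemma vs_ne_three {n : ℕ} (hn : n ≠ 0) : 3 ∉ Vs n := by
  intro h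
  exact ((mem_Vs hn).1 h).2.1 rfl

lemma om_v7 (a N i : ℕ) : padicValNat 7 (Om a N i) = a + 1 := by
  induction i with
  | zero =>
    show padicValNat 7 (7 ^ (a + 1) * 3 ^ N) = a + 1
    rw [padicValNat.mul (by positivity) (by positivity), padicValNat.prime_pow,
      padicValNat.eq_zero_of_not_dvd, add_zero]
    intro h
    have := (by norm_num : Nat.Prime 7).dvd_of_dvd_pow h
    omega
  | succ i ih =>
    show padicValNat 7 (nxt (Om a N i)) = a + 1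
    rw [val_nxt (om_ne a N i) (by norm_num), ih, if_neg (vs_ne_seven (om_ne a N i))]

lemma om_v3 (a N i : ℕ) : padicValNat 3 (Om a N i) = N := by
  induction i with
  | zero =>
    show padicValNat 3 (7 ^ (a + 1) * 3 ^ N) = N
    rw [padicValNat.mul (by positivity) (by positivity), padicValNat.prime_pow,
      padicValNat.eq_zero_of_not_dvd, zero_add]
    intro h
    have := (by norm_num : Nat.Prime 3).dvd_of_dvd_pow h
    omega
  | succ i ih =>
    show padicValNat 3 (nxt (Om a N i)) = N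
    rw [val_nxt (om_ne a N i) Nat.prime_three, ih, if_neg (vs_ne_three (om_ne a N i)), add_zero]

/-- soundness -/
theorem frm_sound (hL : Law) {Kl : ℕ → ℕ → ℕ → Prop}
    (hex : ∀ a N i, Kl a N i → ∃ q : ℕ, q.Prime ∧ Ord q (Om a N i)) {R : Set ℚ}
    (hR : Rg (KT Kl) R) {a N : ℕ} (hN : 16 ≤ N) (hkl : ∀ i, Kl a N i) :
    ¬ Frm R (7 ^ a) (3 ^ N) := by
  rintro ⟨⟨hc, hB⟩, W, V, s, t, u, ⟨hs, ht, hu⟩, ⟨hW, hV, h7W⟩, ⟨h7a, h7b⟩, h3, hSt, hD⟩
  have f3 := Fact.mk Nat.prime_three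
  obtain ⟨hW0, n, hn, hWn⟩ := odd_index ht hW
  obtain ⟨hV0, m, hm, hVm⟩ := odd_index hu hV
  have hn0 : n ≠ 0 := by omega
  have hm0 : m ≠ 0 := by omega
  rw [xc_smul_eq hWn hn0 hW0] at h7W h7a h7b h3 hSt hD
  rw [xc_smul_eq hVm hm0 hV0] at hSt
  rw [hWn, hVm] at hD
  -- the seven-adic valuation
  have x8 : xx (8 * n) ≠ 0 := xx_ne_zero (mul_ne_zero (by norm_num) hn0)
  have v8 : padicValRat 7 (xx (8 * n)) = -2 - 2 * (padicValNat 7 n : ℤ) := by
    have := val_7 (k := (n : ℤ)) (by exact_mod_cast hn0)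
    rw [padicValInt.of_nat] at this
    exact this
  rw [H123.val_one_div] at h7b
  rw [H123.val_expr (by norm_num) hc x8, v7_49, v8] at h7a h7b
  have hc7 : padicValRat 7 ((7 : ℚ) ^ a) = a := by
    have := H123.v_pow_self 7 a
    exact_mod_cast this
  rw [hc7] at h7a h7b
  have hv7 : padicValNat 7 n = a := by omega
  -- the three-adic valuation
  have x6 : xx (6 * n) ≠ 0 := xx_ne_zero (mul_ne_zero (by norm_num) hn0)
  have v6 : padicValRat 3 (xx (6 * n)) = -2 - 2 * (padicValNat 3 n : ℤ) := by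
    have := val_3 (k := (n : ℤ)) (by exact_mod_cast hn0)
    rw [padicValInt.of_nat] at this
    exact this
  have hB3 : padicValRat 3 ((3 : ℚ) ^ N) = N := by
    have := H123.v_pow_self 3 N
    exact_mod_cast this
  rw [H123.val_one_div, H123.val_expr (by norm_num) hB x6, H123.v3_nine, v6, hB3] at h3
  have hv3 : N ≤ padicValNat 3 n := by omega
  -- the base index divides `7 n`
  set X₁ := 7 * n with hX₁
  have hX₁0 : X₁ ≠ 0 := mul_ne_zero (by norm_num) hn0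
  have hX₁o : Odd X₁ := by
    rw [Nat.odd_iff]; omega
  have hv7X : padicValNat 7 X₁ = a + 1 := by
    rw [hX₁, padicValNat.mul (by norm_num) hn0, hv7]
    have : padicValNat 7 7 = 1 := padicValNat_self
    omega
  have hbase : Om a N 0 ∣ X₁ := by
    show 7 ^ (a + 1) * 3 ^ N ∣ X₁
    have hco : Nat.Coprime (7 ^ (a + 1)) (3 ^ N) := Nat.Coprime.pow _ _ (by norm_num)
    refine hco.mul_dvd_of_dvd_of_dvd ?_ ?_
    · rw [← hv7X]; exact pow_padicValNat_dvd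
    · refine dvd_trans (pow_dvd_pow 3 hv3) (dvd_trans pow_padicValNat_dvd ?_)
      exact dvd_mul_left _ _
  -- the largest level
  have hgrow : ∀ i, i ≤ Om a N (i + 1) := by
    intro i
    have h1 := om_growth hL a N hN i
    have h2 : i < 2 ^ i := Nat.lt_two_pow_self
    have h3 : 2 ^ i < 2 ^ 2 ^ i := Nat.lt_two_pow_self
    have h4 : 2 ^ 2 ^ i < 2 ^ 2 ^ 2 ^ i := Nat.lt_two_pow_self
    omega
  have hstop : ∃ i, ¬ Om a N (i + 1) ∣ X₁ := by
    refine ⟨X₁ + 1, fun h => ?_⟩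
    have h1 := Nat.le_of_dvd (Nat.pos_of_ne_zero hX₁0) h
    have h2 := hgrow (X₁ + 1)
    omega
  classical
  obtain ⟨i, hi1, hi2⟩ : ∃ i, Om a N i ∣ X₁ ∧ ¬ Om a N (i + 1) ∣ X₁ := by
    refine ⟨Nat.find hstop, ?_, Nat.find_spec hstop⟩
    rcases Nat.eq_zero_or_pos (Nat.find hstop) with h0 | h0
    · rw [h0]; exact hbase
    · have := Nat.find_min hstop (m := Nat.find hstop - 1) (by omega)
      rw [not_not] at this
      rwa [Nat.sub_add_cancel h0] at this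
  obtain ⟨q, hqT, hqo⟩ := killer_mem (hkl i) (hex a N i (hkl i))
  have hq : q.Prime := hqT.1
  have hxd : q ∣ (xx X₁).den :=
    (val_neg_iff hq (xx_ne_zero hX₁0)).1 ((dv_xx hX₁0).1 ((hqo.2 _).2 (by exact_mod_cast hi1)))
  have hcase := denDvdQ_sound hD hq (fun t ht => hR.sub t ht q hqT) hxd
  have hmdvd : Om a N i ∣ m := by
    rcases hcase with h | h
    · have h1 := (hqo.2 (m : ℤ)).1 ((dv_xx hm0).2 ((val_neg_iff hq (xx_ne_zero hm0)).2 h))
      exact_mod_cast h1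
    · exfalso
      have h1 := (hqo.2 (n : ℤ)).1 ((dv_xx hn0).2 ((val_neg_iff hq (xx_ne_zero hn0)).2 h))
      have h2 : Om a N i ∣ n := by exact_mod_cast h1
      have f7 : Fact (Nat.Prime 7) := ⟨by norm_num⟩
      have h3 : 7 ^ (a + 1) ∣ n := by
        refine dvd_trans ?_ h2
        have := om_v7 a N i
        rw [← this]
        exact pow_padicValNat_dvd
      have h4 := (padicValNat_dvd_iff (p := 7) (a + 1) n).1 h3
      rcases h4 with h4 | h4
      · exact hn0 h4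
      · omega
  have e14 : 14 * n = 2 * X₁ := by rw [hX₁]; ring
  rw [e14] at hSt
  exact hi2 (step_sound hmdvd hi1 hm0 hX₁o hs h7W hSt)

end Vale.Agent.P027.Q
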