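import Vale.Agent.P027.Q.Vis

/-! Completeness of the step relation. -/

set_option linter.all false

namespace Vale.Agent.P027.Q

open Vale.Agent.P027

/-- the multiples of odd index: signs, squares and residues modulo eight -/
def Law : Prop := ∀ n : ℕ, n % 2 = 1 → ∃ c d : ℕ, c % 2 = 1 ∧ d % 2 = 1 ∧ Nat.Coprime c d ∧
  xx n = -((c : ℚ) / d) ^ 2 ∧
  ((d % 8 = 1 ∧ (n % 16 = 1 ∨ n % 16 = 3 ∨ n % 16 = 13 ∨ n % 16 = 15)) ∨
    (d % 8 = 5 ∧ (n % 16 = 5 ∨ n % 16 = 7 ∨ n % 16 = 9 ∨ n % 16 = 11)))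

lemma sq_odd_nat {c : ℕ} (h : c % 2 = 1) : ∃ a : ℤ, (c : ℤ) ^ 2 = 8 * a + 1 := by
  have h1 : Odd (c : ℤ) := by
    rw [Int.odd_iff]; omega
  have h2 := sq_mod8 h1
  obtain ⟨k, hk⟩ := (Int.modEq_iff_dvd.1 h2.symm)
  exact ⟨k, by linarith⟩

lemma v2_odd {z : ℤ} (h : z % 2 = 1) : padicValRat 2 (z : ℚ) = 0 := by
  apply val_int_eq_zero
  intro hd
  have : (2 : ℤ) ∣ z := by exact_mod_cast hd
  omega

/-- the doubles of the odd multiples have coordinates prime to two -/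
lemma v2_double (hL : Law) {n : ℕ} (hn : n % 2 = 1) : padicValRat 2 (xx (2 * n)) = 0 := by
  have := Fact.mk Nat.prime_two
  obtain ⟨c, d, hc, hd, hcop, hx, -⟩ := hL n hn
  have hn0 : n ≠ 0 := by omega
  have h1 := hasX_two_smul (hasX_xx hn0) (xx_ne_zero hn0)
  have e1 : (n : ℤ) • P0 + (n : ℤ) • P0 = ((2 * n : ℕ) : ℤ) • P0 := by
    rw [← add_zsmul]
    congr 1
    push_cast
    ring
  rw [e1] at h1
  have h2 : xx (2 * n) = _ := (hasX_xx (mul_ne_zero two_ne_zero hn0)).unique h1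
  obtain ⟨a, ha⟩ := sq_odd_nat hc
  obtain ⟨b, hb⟩ := sq_odd_nat hd
  have hc0 : (c : ℚ) ≠ 0 := by
    have : c ≠ 0 := by omega
    exact_mod_cast this
  have hd0 : (d : ℚ) ≠ 0 := by
    have : d ≠ 0 := by omega
    exact_mod_cast this
  have haq : (c : ℚ) ^ 2 = 8 * a + 1 := by exact_mod_cast ha
  have hbq : (d : ℚ) ^ 2 = 8 * b + 1 := by exact_mod_cast hb
  set u : ℤ := 8 * a ^ 2 + 2 * a + 56 * b ^ 2 + 14 * b + 1 with hu
  set w : ℤ := 28 * b ^ 2 + 12 * b + 40 * a * b + 4 * a - 4 * a ^ 2 + 1 with hw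
  have hu2 : u % 2 = 1 := by
    have : u = 2 * (4 * a ^ 2 + a + 28 * b ^ 2 + 7 * b) + 1 := by rw [hu]; ring
    omega
  have hw2 : w % 2 = 1 := by
    have : w = 2 * (14 * b ^ 2 + 6 * b + 20 * a * b + 2 * a - 2 * a ^ 2) + 1 := by rw [hw]; ring
    omega
  have hw0 : (w : ℚ) ≠ 0 := by
    have : w ≠ 0 := by omega
    exact_mod_cast this
  have hu0 : (u : ℚ) ≠ 0 := by
    have : u ≠ 0 := by omega
    exact_mod_cast this
  have key : xx (2 * n) = (u : ℚ) ^ 2 / ((c : ℚ) ^ 2 * (d : ℚ) ^ 2 * w) := by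
    rw [h2, hx]
    have e2 : ((-((c : ℚ) / d) ^ 2) ^ 2 + 7) ^ 2 = (8 * u) ^ 2 / (d : ℚ) ^ 8 := by
      rw [eq_div_iff (pow_ne_zero _ hd0)]
      have e3 : (8 : ℚ) * u = (c : ℚ) ^ 4 + 7 * (d : ℚ) ^ 4 := by
        have e4 : (c : ℚ) ^ 4 = (8 * a + 1) ^ 2 := by rw [← haq]; ring
        have e5 : (d : ℚ) ^ 4 = (8 * b + 1) ^ 2 := by rw [← hbq]; ring
        rw [e4, e5, hu]
        push_cast
        ring
      rw [e3]
      field_simp
    have e3 : (-((c : ℚ) / d) ^ 2) ^ 3 + 10 * (-((c : ℚ) / d) ^ 2) ^ 2 - 7 * (-((c : ℚ) / d) ^ 2) =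
        (c : ℚ) ^ 2 * (16 * w) / (d : ℚ) ^ 6 := by
      rw [eq_div_iff (pow_ne_zero _ hd0)]
      have e3 : (16 : ℚ) * w = 7 * (d : ℚ) ^ 4 + 10 * (c : ℚ) ^ 2 * (d : ℚ) ^ 2 - (c : ℚ) ^ 4 := by
        have e4 : (c : ℚ) ^ 4 = (8 * a + 1) ^ 2 := by rw [← haq]; ring
        have e5 : (d : ℚ) ^ 4 = (8 * b + 1) ^ 2 := by rw [← hbq]; ring
        rw [e4, e5, haq, hbq, hw]
        push_cast
        ring
      rw [e3]
      field_simp
      ring
    rw [e2, e3]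
    field_simp
    ring
  rw [key, padicValRat.div (pow_ne_zero _ hu0)
    (mul_ne_zero (mul_ne_zero (pow_ne_zero _ hc0) (pow_ne_zero _ hd0)) hw0), padicValRat.pow,
    padicValRat.mul (mul_ne_zero (pow_ne_zero _ hc0) (pow_ne_zero _ hd0)) hw0,
    padicValRat.mul (pow_ne_zero _ hc0) (pow_ne_zero _ hd0), padicValRat.pow, padicValRat.pow,
    v2_odd hu2, v2_odd hw2]
  have ec : padicValRat 2 (c : ℚ) = 0 := vnat_zero (by omega)
  have ed : padicValRat 2 (d : ℚ) = 0 := vnat_zero (by omega)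
  rw [ec, ed]
  norm_num

lemma law_s (hL : Law) {n : ℕ} (hn : n % 2 = 1) : ∃ s : ℚ, s ≠ 0 ∧ xx n = -s ^ 2 := by
  obtain ⟨c, d, hc, hd, hcop, hx, -⟩ := hL n hn
  have hc0 : (c : ℚ) ≠ 0 := by
    have : c ≠ 0 := by omega
    exact_mod_cast this
  have hd0 : (d : ℚ) ≠ 0 := by
    have : d ≠ 0 := by omega
    exact_mod_cast this
  exact ⟨_, div_ne_zero hc0 hd0, hx⟩

lemma v2_root (hL : Law) {n : ℕ} (hn : n % 2 = 1) {s : ℚ} (hs : s ≠ 0) (h : xx n = -s ^ 2) :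
    padicValRat 2 s = 0 := by
  have := Fact.mk Nat.prime_two
  obtain ⟨c, d, hc, hd, hcop, hx, -⟩ := hL n hn
  have hc0 : (c : ℚ) ≠ 0 := by
    have : c ≠ 0 := by omega
    exact_mod_cast this
  have hd0 : (d : ℚ) ≠ 0 := by
    have : d ≠ 0 := by omega
    exact_mod_cast this
  have h1 := (wt_eq Nat.prime_two hs h).1
  have h2 := (wt_eq Nat.prime_two (div_ne_zero hc0 hd0) hx).1
  have ec : padicValRat 2 (c : ℚ) = 0 := vnat_zero (by omega)
  have ed : padicValRat 2 (d : ℚ) = 0 := vnat_zero (by omega)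
  rw [h1, padicValRat.div hc0 hd0, ec, ed] at h2
  omega

theorem step_complete (hL : Law) {Ω : ℕ} (hΩ : Odd Ω) (h3 : 3 ∣ Ω) {s : ℚ} (hs0 : s ≠ 0)
    (hs : xx (nxt Ω) = -s ^ 2) : St s (xx (2 * Ω) / xx (2 * nxt Ω)) := by
  have hΩ0 : Ω ≠ 0 := by rintro rfl; simp at hΩ
  have hodd := nxt_odd hΩ
  have hn0 : nxt Ω ≠ 0 := by intro h; rw [h] at hodd; simp at hodd
  set Pr := ∏ q ∈ Vs Ω, q with hpr
  have hprodd : Odd Pr := prod_Vs_odd hΩ0
  have hpr0 : Pr ≠ 0 := by intro h; rw [h] at hprodd; simp at hprodd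
  have hnxt : nxt Ω = Ω * Pr := rfl
  have hS : ∀ q ∈ Vs Ω, q.Prime := fun q hq => ((mem_Vs hΩ0).1 hq).1.1
  have hx0 : xx (2 * Ω) ≠ 0 := xx_ne_zero (mul_ne_zero two_ne_zero hΩ0)
  have hx1 : xx (2 * nxt Ω) ≠ 0 := xx_ne_zero (mul_ne_zero two_ne_zero hn0)
  refine st_complete hs0 (v2_root hL (Nat.odd_iff.1 hodd) hs0 hs) ?_ ?_ ?_
  · have := Fact.mk Nat.prime_two
    rw [padicValRat.div hx0 hx1, v2_double hL (Nat.odd_iff.1 hΩ), v2_double hL (Nat.odd_iff.1 hodd)]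
    norm_num
  · have := Fact.mk Nat.prime_three
    obtain ⟨Ω', rfl⟩ := h3
    have hΩ' : Ω' ≠ 0 := right_ne_zero_of_mul hΩ0
    have e0 : padicValRat 3 (xx (2 * (3 * Ω'))) = -2 - 2 * (padicValNat 3 Ω' : ℤ) := by
      have := val_3 (k := (Ω' : ℤ)) (by exact_mod_cast hΩ')
      rw [padicValInt.of_nat] at this
      rw [← this]
      unfold xx
      congr 3
      push_cast
      ring
    have e1 : padicValRat 3 (xx (2 * nxt (3 * Ω'))) = -2 - 2 * (padicValNat 3 (Ω' * Pr) : ℤ) := by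
      have := val_3 (k := ((Ω' * Pr : ℕ) : ℤ)) (by exact_mod_cast mul_ne_zero hΩ' hpr0)
      rw [padicValInt.of_nat] at this
      rw [← this]
      unfold xx
      congr 3
      rw [hnxt]
      push_cast
      ring
    have e2 : padicValNat 3 (Ω' * Pr) = padicValNat 3 Ω' := by
      rw [padicValNat.mul hΩ' hpr0, hpr, val_prod_primes _ hS Nat.prime_three, if_neg, add_zero]
      intro h
      exact ((mem_Vs hΩ0).1 h).2.1 rfl
    rw [padicValRat.div hx0 hx1, e0, e1, e2]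
    norm_num
  · intro q hq hq3 hso
    right
    have := Fact.mk hq.1
    have hq7 := inert_ne_seven hq
    have hw1 : Odd (wt q (nxt Ω)) := by
      rw [(wt_eq hq.1 hs0 hs).2]
      exact Int.natAbs_odd.2 hso
    have hw0 : wt q Ω = 0 := by
      by_contra hne
      have h1 : wt q (nxt Ω) = wt q Ω + if q ∈ Vs Ω then 1 else 0 := by
        rw [hnxt, wt_mul hq.1 hq7 hΩ0 hprodd hne, hpr, val_prod_primes _ hS hq.1]
      by_cases h2 : Odd (wt q Ω)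
      · rw [if_pos ((mem_Vs hΩ0).2 ⟨hq, hq3, h2⟩)] at h1
        rw [h1] at hw1
        rcases h2 with ⟨k, hk⟩
        rcases hw1 with ⟨k', hk'⟩
        omega
      · rw [if_neg (fun h => h2 ((mem_Vs hΩ0).1 h).2.2), add_zero] at h1
        rw [h1] at hw1
        exact h2 hw1
    obtain ⟨s₀, hs₀0, hs₀⟩ := law_s hL (Nat.odd_iff.1 hΩ)
    have hv0 : padicValRat q (xx Ω) = 0 := by
      have h1 := wt_eq hq.1 hs₀0 hs₀
      rw [hw0] at h1
      omega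
    have hv1 : padicValRat q (xx (nxt Ω)) ≠ 0 := by
      intro h
      unfold wt at hw1
      rw [h] at hw1
      simp at hw1
    obtain ⟨G, hG⟩ := exists_group q hq.1
    obtain ⟨k, hk⟩ := hprodd
    have hb : ¬ padicValRat q (xx (2 * Ω)) < 0 := by
      intro hneg
      have g2 : ((2 * Ω : ℕ) : ℤ) • P0 ∈ G := (hG _ _ (hasX_xx (mul_ne_zero two_ne_zero hΩ0))).2 hneg
      have gk : (k : ℤ) • (((2 * Ω : ℕ) : ℤ) • P0) ∈ G := G.zsmul_mem g2 k
      have e : ((nxt Ω : ℕ) : ℤ) • P0 = (Ω : ℤ) • P0 + (k : ℤ) • (((2 * Ω : ℕ) : ℤ) • P0) := by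
        rw [← mul_zsmul, ← add_zsmul]
        congr 1
        rw [hnxt, hk]
        push_cast
        ring
      rcases lt_or_gt_of_ne hv1 with h1 | h1
      · have h2 : ((nxt Ω : ℕ) : ℤ) • P0 ∈ G := (hG _ _ (hasX_xx hn0)).2 h1
        rw [e] at h2
        have h3 := (G.add_mem_cancel_right gk).1 h2
        rw [hG _ _ (hasX_xx hΩ0)] at h3
        omega
      · have h2 : ((nxt Ω : ℕ) : ℤ) • P0 + T0 ∈ G := by
          rw [hG _ _ (hasX_T hn0), val_T hq.1 hq7 (xx_ne_zero hn0)]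
          omega
        rw [e] at h2
        have e3 : (Ω : ℤ) • P0 + (k : ℤ) • (((2 * Ω : ℕ) : ℤ) • P0) + T0 =
            ((Ω : ℤ) • P0 + T0) + (k : ℤ) • (((2 * Ω : ℕ) : ℤ) • P0) := by abel
        rw [e3] at h2
        have h3 := (G.add_mem_cancel_right gk).1 h2
        rw [hG _ _ (hasX_T hΩ0), val_T hq.1 hq7 (xx_ne_zero hΩ0)] at h3
        omega
    have hc : padicValRat q (xx (2 * nxt Ω)) < 0 := by
      rcases lt_or_gt_of_ne hv1 with h1 | h1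
      · rw [mul_comm, v_mul_neg hq.1 hn0 two_ne_zero h1]
        omega
      · have h2 : ((nxt Ω : ℕ) : ℤ) • P0 + T0 ∈ G := by
          rw [hG _ _ (hasX_T hn0), val_T hq.1 hq7 (xx_ne_zero hn0)]
          omega
        have h6 := G.add_mem h2 h2
        have e : (nxt Ω : ℤ) • P0 + T0 + ((nxt Ω : ℤ) • P0 + T0) = ((2 * nxt Ω : ℕ) : ℤ) • P0 := by
          have e1 : (nxt Ω : ℤ) • P0 + T0 + ((nxt Ω : ℤ) • P0 + T0) =
              ((nxt Ω : ℤ) • P0 + (nxt Ω : ℤ) • P0) + (T0 + T0) := by abel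
          rw [e1, two_T0, add_zero, ← add_zsmul]
          congr 1
          push_cast
          ring
        rw [e] at h6
        rwa [hG _ _ (hasX_xx (mul_ne_zero two_ne_zero hn0))] at h6
    rw [padicValRat.div hx0 hx1]
    omega

end Vale.Agent.P027.Q
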