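import Vale.Agent.P027.Q.Frm
import Vale.Agent.P027.R2.H250.IntP
import Vale.Agent.P027.R4.H788.Bridge

/-! The formula is positive existential. -/

set_option linter.all false

namespace Vale.Agent.P027.Q

open MvPolynomial Vale.Agent.P345 Vale.Agent.P027 Vale.Agent.P027.D1

variable {C : Set ℚ → Prop}

theorem rdio_denDvdQ (hC : ∀ R, C R → (0 : ℚ) ∈ R) {f g k : (ℕ → ℚ) → ℚ} (hf : DioFn f)
    (hg : DioFn g) (hk : DioFn k) : RDio C (fun R v => DenDvdQ R (f v) (g v) (k v)) := by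
  unfold DenDvdQ
  apply RDio.exR hC
  apply RDio.exR hC
  apply RDio.exR hC
  apply RDio.exR hC
  apply RDio.exR hC
  apply RDio.exR hC
  apply RDio.exR hC
  apply RDio.exR hC
  apply RDio.exR hC
  apply RDio.exR hC
  apply RDio.exR hC
  apply RDio.exR hC
  apply RDio.exR hC
  have h1 : Dio (fun v => f (tl (tl (tl (tl (tl (tl (tl (tl (tl (tl (tl (tl (tl v))))))))))))) *
      v 11 = v 12) :=
    Dio.eq (hf.tl.tl.tl.tl.tl.tl.tl.tl.tl.tl.tl.tl.tl.mul (DioFn.var 11)) (DioFn.var 12)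
  have h2 : Dio (fun v => v 10 * v 12 + v 9 * v 11 = 1) :=
    Dio.eq (((DioFn.var 10).mul (DioFn.var 12)).add ((DioFn.var 9).mul (DioFn.var 11)))
      (by simpa using DioFn.int 1)
  have h3 : Dio (fun v => g (tl (tl (tl (tl (tl (tl (tl (tl (tl (tl (tl (tl (tl v))))))))))))) *
      v 7 = v 8) :=
    Dio.eq (hg.tl.tl.tl.tl.tl.tl.tl.tl.tl.tl.tl.tl.tl.mul (DioFn.var 7)) (DioFn.var 8)
  have h4 : Dio (fun v => v 6 * v 8 + v 5 * v 7 = 1) :=
    Dio.eq (((DioFn.var 6).mul (DioFn.var 8)).add ((DioFn.var 5).mul (DioFn.var 7)))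
      (by simpa using DioFn.int 1)
  have h5 : Dio (fun v => k (tl (tl (tl (tl (tl (tl (tl (tl (tl (tl (tl (tl (tl v))))))))))))) *
      v 3 = v 4) :=
    Dio.eq (hk.tl.tl.tl.tl.tl.tl.tl.tl.tl.tl.tl.tl.tl.mul (DioFn.var 3)) (DioFn.var 4)
  have h6 : Dio (fun v => v 2 * v 4 + v 1 * v 3 = 1) :=
    Dio.eq (((DioFn.var 2).mul (DioFn.var 4)).add ((DioFn.var 1).mul (DioFn.var 3)))
      (by simpa using DioFn.int 1)
  have h7 : Dio (fun v => v 7 * v 7 * v 3 = v 0 * v 11) :=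
    Dio.eq (((DioFn.var 7).mul (DioFn.var 7)).mul (DioFn.var 3)) ((DioFn.var 0).mul (DioFn.var 11))
  exact RDio.of_dio hC (h1.and (h2.and (h3.and (h4.and (h5.and (h6.and h7))))))

theorem rdio_frm (hC : ∀ R, C R → (0 : ℚ) ∈ R) :
    RDio C (fun R v => Frm R (v 0) (v 1)) := by
  unfold Frm
  have z : DioFn (fun _ => (0 : ℚ)) := by simpa using DioFn.int 0
  have ne : ∀ i : ℕ, Dio (fun v => v i ≠ 0) := fun i => Dio.ne (DioFn.var i) z
  have fng : ∀ {f : (ℕ → ℚ) → ℚ}, DioFn f → DioFn (fun v => -f v) := fun hf => by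
    simpa using z.sub hf
  refine (RDio.of_dio hC ((ne 0).and (ne 1))).and ?_
  apply exP_rdio hC
  apply exP_rdio hC
  apply RDio.ex hC
  apply RDio.ex hC
  apply RDio.ex hC
  -- variables: u = v 0, t = v 1, s = v 2, V = (v 3, v 4), W = (v 5, v 6), c = v 7, B = v 8
  have pV : DPt (fun v => dec (v 3) (v 4)) := DPt.dec (DioFn.var 3) (DioFn.var 4)
  have pW : DPt (fun v => dec (v 5) (v 6)) := DPt.dec (DioFn.var 5) (DioFn.var 6)
  have cs : DioFn (fun v => v 2) := DioFn.var 2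
  have ct : DioFn (fun v => v 1) := DioFn.var 1
  have cu : DioFn (fun v => v 0) := DioFn.var 0
  have cc : DioFn (fun v => v 7) := DioFn.var 7
  have cB : DioFn (fun v => v 8) := DioFn.var 8
  have i7 : ∀ {f : (ℕ → ℚ) → ℚ}, DioFn f → Dio (fun v => 0 ≤ padicValRat 7 (f v)) :=
    fun hf => T2.dio_intp (by norm_num) hf
  have i3 : ∀ {f : (ℕ → ℚ) → ℚ}, DioFn f → Dio (fun v => 0 ≤ padicValRat 3 (f v)) :=
    fun hf => T2.dio_intp Nat.prime_three hf
  have e49 : DioFn (fun v => 49 * (v 7 ^ 2 * xc (8 • dec (v 5) (v 6)))) :=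
    (lit_fn 49).mul ((cc.pow 2).mul (pW.nsmul 8).xc)
  have e9 : DioFn (fun v => 9 * (v 8 ^ 2 * xc (6 • dec (v 5) (v 6)))) :=
    (lit_fn 9).mul ((cB.pow 2).mul (pW.nsmul 6).xc)
  exact (RDio.of_dio hC ((ne 2).and ((ne 1).and (ne 0)))).and
    ((RDio.of_dio hC ((Dio.eq pW.xc (fng (ct.pow 2))).and ((Dio.eq pV.xc (fng (cu.pow 2))).and
      (Dio.eq (pW.nsmul 7).xc (fng (cs.pow 2)))))).and
    ((RDio.of_dio hC ((i7 e49).and (i7 (one_fn.div e49)))).and
    ((RDio.of_dio hC (i3 (one_fn.div e9))).and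
    ((RDio.of_dio hC (dio_st cs ((pV.nsmul 2).xc.div (pW.nsmul 14).xc))).and
      (rdio_denDvdQ hC (pW.nsmul 7).xc pV.xc pW.xc)))))

/-- the formula as a polynomial -/
theorem exists_poly : ∃ (m : ℕ) (G : MvPolynomial (Fin 2 ⊕ Fin m) ℤ), ∀ R : Set ℚ,
    (∀ z : ℤ, (z : ℚ) ∈ R) → ∀ (c B : ℚ),
    (Frm R c B ↔ ∃ x : Fin m → ℚ, (∀ i, x i ∈ R) ∧ aeval (Sum.elim ![c, B] x) G = 0) := by
  have hR : RDio (fun R => ∀ z : ℤ, (z : ℚ) ∈ R)
      (fun R v => Frm R (v 0) (v 1)) :=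
    rdio_frm (fun R hR => by simpa using hR 0)
  obtain ⟨m, r, F, hF⟩ := rowC2 (fun R => ∀ z : ℤ, (z : ℚ) ∈ R)
    (fun R hR => by simpa using hR 0) (k := 2)
    (S := fun R x => Frm R (x 0) (x 1)) hR
  let φ : Fin 2 ⊕ Fin m ⊕ Fin r → Fin 2 ⊕ Fin (m + r) :=
    Sum.elim Sum.inl (Sum.elim (fun i => Sum.inr (Fin.castAdd r i)) (fun j => Sum.inr (Fin.natAdd m j)))
  refine ⟨m + r, rename φ F, fun R hZ c B => ?_⟩
  have key : ∀ (u : Fin m → ℚ) (y : Fin r → ℚ) (x : Fin (m + r) → ℚ),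
      (∀ i, x (Fin.castAdd r i) = u i) → (∀ j, x (Fin.natAdd m j) = y j) →
      Sum.elim ![c, B] x ∘ φ = Sum.elim ![c, B] (Sum.elim u y) := by
    intro u y x hu hy
    funext i
    rcases i with i | i | j
    · rfl
    · exact hu i
    · exact hy j
  constructor
  · intro hfr
    obtain ⟨u, y, hu, hy, h⟩ := (hF R R hZ hZ ![c, B]).1 hfr
    refine ⟨Fin.append u y, ?_, ?_⟩
    · intro i
      refine Fin.addCases (fun i => ?_) (fun j => ?_) i
      · rw [Fin.append_left]; exact hu i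
      · rw [Fin.append_right]; exact hy j
    · rw [aeval_rename, key u y]
      · exact h
      · intro i
        rw [Fin.append_left]
      · intro j
        rw [Fin.append_right]
  · rintro ⟨x, hx, h⟩
    refine (hF R R hZ hZ ![c, B]).2 ⟨fun i => x (Fin.castAdd r i),
      fun j => x (Fin.natAdd m j), fun i => hx _, fun j => hx _, ?_⟩
    rw [aeval_rename, key _ _ x (fun i => rfl) (fun j => rfl)] at h
    exact h

end Vale.Agent.P027.Q
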