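import Vale.Agent.P027.Bdl.B1

/-! The relation: every inert prime `q ≠ 3` with `v_q(s)` odd divides `κ`. -/

set_option linter.all false

namespace Vale.Agent.P027.Q

open Vale.Agent.P027

/-- every inert prime `q ≠ 3` which occurs in `s` with odd multiplicity divides `κ` -/
def St (s κ : ℚ) : Prop := ∃ w b a : ℚ, w ≠ 0 ∧
  (b = s * w ^ 2 ∨ b = -(s * w ^ 2) ∨ b = 3 * (s * w ^ 2) ∨ b = -(3 * (s * w ^ 2))) ∧
  Three8 b ∧ Cap a b ∧ Con a b 1 ∧ Con a b (9 * κ / b)

theorem st_sound {s κ : ℚ} (hs : s ≠ 0) (h : St s κ) {q : ℕ} (hq : Inert q) (hq3 : q ≠ 3)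
    (ho : Odd (padicValRat q s)) : κ = 0 ∨ 1 ≤ padicValRat q κ := by
  have := Fact.mk hq.1
  obtain ⟨w, b, a, hw, hb, h8, hcap, h1, h2⟩ := h
  have hsw : s * w ^ 2 ≠ 0 := mul_ne_zero hs (pow_ne_zero _ hw)
  have v3 : padicValRat q (3 : ℚ) = 0 := by
    have := vprime (p := q) (q := 3) hq.1 Nat.prime_three hq3
    exact_mod_cast this
  have hv : padicValRat q b = padicValRat q s + 2 * padicValRat q w := by
    have e1 : padicValRat q (s * w ^ 2) = padicValRat q s + 2 * padicValRat q w := by
      rw [padicValRat.mul hs (pow_ne_zero _ hw), padicValRat.pow]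
      push_cast
      ring
    have e2 : padicValRat q (3 * (s * w ^ 2)) = padicValRat q s + 2 * padicValRat q w := by
      rw [padicValRat.mul (by norm_num) hsw, v3, zero_add, e1]
    rcases hb with h | h | h | h
    · rw [h, e1]
    · rw [h, padicValRat.neg, e1]
    · rw [h, e2]
    · rw [h, padicValRat.neg, e2]
  have hodd : Odd (padicValRat q b) := by
    rw [hv]
    obtain ⟨k, hk⟩ := ho
    exact ⟨k + padicValRat q w, by rw [hk]; ring⟩
  have hpos : 1 ≤ padicValRat q b := by
    rcases capture_sound hq hodd hcap h1 with h | h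
    · norm_num at h
    · simp only [one_pow, mul_one] at h
      obtain ⟨k, hk⟩ := hodd
      omega
  rcases con_div_sound hq hodd hpos hcap h2 with h | h
  · left
    rcases mul_eq_zero.1 h with h | h
    · norm_num at h
    · exact h
  · by_cases hk : κ = 0
    · exact Or.inl hk
    · right
      rw [padicValRat.mul (by norm_num) hk] at h
      have v9 : padicValRat q (9 : ℚ) = 0 := by
        have e9 : (9 : ℚ) = 3 ^ 2 := by norm_num
        rw [e9, padicValRat.pow, v3, mul_zero]
      rw [v9, zero_add] at h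
      exact h

theorem three8_int {b : ℤ} (h : b % 8 = 3) : Three8 (b : ℚ) := by
  unfold Three8
  obtain ⟨k, hk⟩ : ∃ k, b = 8 * k + 3 := ⟨b / 8, by omega⟩
  rw [hk]
  have : (((8 * k + 3 : ℤ) : ℚ) - 3) / 8 = (k : ℚ) := by push_cast; ring
  rw [this]
  rw [padicValRat.of_int]
  exact Int.natCast_nonneg _

theorem st_complete {s κ : ℚ} (hs : s ≠ 0) (hs2 : padicValRat 2 s = 0) (hk2 : 0 ≤ padicValRat 2 κ)
    (hk3 : -1 ≤ padicValRat 3 κ)
    (h : ∀ q, Inert q → q ≠ 3 → Odd (padicValRat q s) → κ = 0 ∨ 1 ≤ padicValRat q κ) :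
    St s κ := by
  have f2 := Fact.mk Nat.prime_two
  have f3 := Fact.mk Nat.prime_three
  obtain ⟨n, t, hn, ht, hst⟩ := sqf_rat hs
  have hn0 : (n : ℚ) ≠ 0 := by
    rintro h0
    rw [h0, zero_mul] at hst
    exact hs hst
  have vs : ∀ q : ℕ, q.Prime → padicValRat q s = padicValRat q (n : ℚ) + 2 * padicValRat q t := by
    intro q hq
    have := Fact.mk hq
    rw [hst, padicValRat.mul hn0 (pow_ne_zero _ ht), padicValRat.pow]
    push_cast
    ring
  -- valuations of a squarefree integer
  have vn : ∀ q : ℕ, q.Prime → padicValRat q (n : ℚ) = 0 ∨ padicValRat q (n : ℚ) = 1 := by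
    intro q hq
    have := Fact.mk hq
    rw [padicValRat.of_int]
    by_cases h1 : (q : ℤ) ∣ n
    · right
      have h2 : ¬ ((q : ℤ) ^ 2 ∣ n) := by
        intro h2
        have := hn (q : ℤ) (by rw [← sq]; exact h2)
        exact (Nat.prime_iff_prime_int.1 hq).not_unit this
      have h3 : padicValInt q n = 1 := by
        have hn0' : n ≠ 0 := by exact_mod_cast hn0
        have e1 : 1 ≤ padicValInt q n := by
          have := (padicValInt_dvd_iff (p := q) 1 n).1 (by simpa using h1)
          rcases this with h | h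
          · exact absurd h hn0'
          · exact h
        have e2 : ¬ 2 ≤ padicValInt q n := fun h4 =>
          h2 ((padicValInt_dvd_iff (p := q) 2 n).2 (Or.inr h4))
        omega
      rw [h3]
      norm_num
    · left
      rw [padicValInt.eq_zero_of_not_dvd h1]
      norm_num
  have n2 : padicValRat 2 (n : ℚ) = 0 := by
    have e := vs 2 Nat.prime_two
    rcases vn 2 Nat.prime_two with h1 | h1
    · exact h1
    · rw [h1, hs2] at e
      omega
  have nodd : n % 2 = 1 := by
    by_contra hcon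
    have h1 : ((2 : ℕ) : ℤ) ∣ n := by omega
    have hn0' : n ≠ 0 := by exact_mod_cast hn0
    rw [padicValRat.of_int] at n2
    have e1 : padicValInt 2 n = 0 := by exact_mod_cast n2
    have := (padicValInt_dvd_iff (p := 2) 1 n).1 (by simpa using h1)
    rcases this with h | h
    · exact absurd h hn0'
    · omega
  -- the multiplier
  obtain ⟨ε, hε, hε8⟩ : ∃ ε : ℤ, (ε = 1 ∨ ε = -1 ∨ ε = 3 ∨ ε = -3) ∧ (ε * n) % 8 = 3 := by
    have h8 : n % 8 = 1 ∨ n % 8 = 3 ∨ n % 8 = 5 ∨ n % 8 = 7 := by omega
    rcases h8 with h | h | h | h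
    · exact ⟨3, by norm_num, by omega⟩
    · exact ⟨1, by norm_num, by omega⟩
    · exact ⟨-1, by norm_num, by omega⟩
    · exact ⟨-3, by norm_num, by omega⟩
  have hε0 : (ε : ℚ) ≠ 0 := by
    rcases hε with h | h | h | h <;> rw [h] <;> norm_num
  have vε : ∀ q : ℕ, q.Prime → q ≠ 3 → padicValRat q (ε : ℚ) = 0 := by
    intro q hq h3
    have := Fact.mk hq
    have v3 : padicValRat q (3 : ℚ) = 0 := by
      have := vprime (p := q) (q := 3) hq Nat.prime_three h3
      exact_mod_cast this
    rcases hε with h | h | h | h <;> rw [h]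
    · simp
    · simp [padicValRat.neg]
    · rw [Int.cast_ofNat]
      exact v3
    · push_cast
      rw [padicValRat.neg]
      exact v3
  have vε3 : padicValRat 3 (ε : ℚ) = 0 ∨ padicValRat 3 (ε : ℚ) = 1 := by
    have v3 : padicValRat 3 (3 : ℚ) = 1 := v33
    rcases hε with h | h | h | h <;> rw [h]
    · left; simp
    · left; simp [padicValRat.neg]
    · right
      rw [Int.cast_ofNat]
      exact v3
    · right
      push_cast
      rw [padicValRat.neg]
      exact v3
  set b : ℚ := ((ε * n : ℤ) : ℚ) with hb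
  have hb8 : Three8 b := three8_int hε8
  have hb0 : b ≠ 0 := hb8.val.1
  have vb : ∀ q : ℕ, q.Prime → padicValRat q b = padicValRat q (ε : ℚ) + padicValRat q (n : ℚ) := by
    intro q hq
    have := Fact.mk hq
    rw [hb, Int.cast_mul, padicValRat.mul hε0 hn0]
  have vb1 : ∀ q : ℕ, q.Prime → Odd (padicValRat q b) → padicValRat q b = 1 := by
    intro q hq ho
    have e := vb q hq
    by_cases h3 : q = 3
    · subst h3
      rcases vn 3 hq with h1 | h1 <;> rcases vε3 with h2 | h2 <;> rw [h1, h2] at e <;>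
        rw [e] at ho ⊢ <;> revert ho <;> decide
    · rw [vε q hq h3, zero_add] at e
      rcases vn q hq with h1 | h1 <;> rw [h1] at e <;> rw [e] at ho ⊢ <;> revert ho <;> decide
  obtain ⟨a, ha, hall⟩ := capture_complete hb8 [1, 9 * κ / b] (by
    intro r hr
    simp only [List.mem_cons, List.not_mem_nil, or_false] at hr
    rcases hr with rfl | rfl
    · refine ⟨by simp, fun q hq ho => Or.inr ?_⟩
      rw [one_pow, mul_one, vb1 q hq.1 ho]
      norm_num
    · by_cases hk0 : κ = 0
      · subst hk0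
        simp
      have h9k : (9 : ℚ) * κ ≠ 0 := mul_ne_zero (by norm_num) hk0
      refine ⟨?_, fun q hq ho => Or.inr ?_⟩
      · rw [padicValRat.div h9k hb0, hb8.val.2, sub_zero, padicValRat.mul (by norm_num) hk0]
        have v9 : padicValRat 2 (9 : ℚ) = 0 := by
          have := vnat_zero (p := 2) (n := 9) (by norm_num)
          exact_mod_cast this
        rw [v9, zero_add]
        exact hk2
      · have := Fact.mk hq.1
        rw [padicValRat.mul hb0 (pow_ne_zero _ (div_ne_zero h9k hb0)), padicValRat.pow,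
          padicValRat.div h9k hb0, vb1 q hq.1 ho, padicValRat.mul (by norm_num) hk0]
        have key : 1 ≤ padicValRat q (9 : ℚ) + padicValRat q κ := by
          by_cases h3 : q = 3
          · subst h3
            rw [v39]
            omega
          · have v3 : padicValRat q (3 : ℚ) = 0 := by
              have := vprime (p := q) (q := 3) hq.1 Nat.prime_three h3
              exact_mod_cast this
            have v9 : padicValRat q (9 : ℚ) = 0 := by
              have e9 : (9 : ℚ) = 3 ^ 2 := by norm_num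
              rw [e9, padicValRat.pow, v3, mul_zero]
            rw [v9, zero_add]
            have e := vb q hq.1
            rw [vε q hq.1 h3, zero_add, vb1 q hq.1 ho] at e
            have ho' : Odd (padicValRat q s) := by
              rw [vs q hq.1, ← e]
              exact ⟨padicValRat q t, by ring⟩
            rcases h q hq h3 ho' with h4 | h4
            · exact absurd h4 hk0
            · exact h4
        push_cast
        omega)
  refine ⟨1 / t, b, a, one_div_ne_zero ht, ?_, hb8, ha, hall _ (by simp), hall _ (by simp)⟩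
  have e : s * (1 / t) ^ 2 = n := by
    rw [hst]
    field_simp
  rw [e, hb]
  rcases hε with h | h | h | h <;> rw [h]
  · left; push_cast; ring
  · right; left; push_cast; ring
  · right; right; left; push_cast; ring
  · right; right; right; push_cast; ring

theorem dio_st {f g : (ℕ → ℚ) → ℚ} (hf : DioFn f) (hg : DioFn g) :
    Dio (fun v => St (f v) (g v)) := by
  unfold St
  have hf' := hf.tl.tl.tl
  have hg' := hg.tl.tl.tl
  have w : DioFn (fun v => v 2) := DioFn.var 2
  have b : DioFn (fun v => v 1) := DioFn.var 1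
  have a : DioFn (fun v => v 0) := DioFn.var 0
  have sw := hf'.mul (w.pow 2)
  have ng : ∀ {k : (ℕ → ℚ) → ℚ}, DioFn k → DioFn (fun v => -k v) := fun hk => by
    simpa using zero_fn.sub hk
  have h1 := (Dio.ne w zero_fn).and (((Dio.eq b sw).or ((Dio.eq b (ng sw)).or
    ((Dio.eq b ((lit_fn 3).mul sw)).or (Dio.eq b (ng ((lit_fn 3).mul sw)))))).and
    ((dio_three8 b).and ((dio_cap a b).and ((dio_con a b one_fn).and
      (dio_con a b (((lit_fn 9).mul hg').div b))))))
  refine Dio.ex (S := fun w v => ∃ b a : ℚ, w ≠ 0 ∧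
    (b = f v * w ^ 2 ∨ b = -(f v * w ^ 2) ∨ b = 3 * (f v * w ^ 2) ∨ b = -(3 * (f v * w ^ 2))) ∧
    Three8 b ∧ Cap a b ∧ Con a b 1 ∧ Con a b (9 * g v / b)) ?_
  refine Dio.ex (S := fun b v => ∃ a : ℚ, v 0 ≠ 0 ∧
    (b = f (tl v) * v 0 ^ 2 ∨ b = -(f (tl v) * v 0 ^ 2) ∨ b = 3 * (f (tl v) * v 0 ^ 2) ∨
      b = -(3 * (f (tl v) * v 0 ^ 2))) ∧
    Three8 b ∧ Cap a b ∧ Con a b 1 ∧ Con a b (9 * g (tl v) / b)) ?_
  refine Dio.ex (S := fun a v => v 1 ≠ 0 ∧
    (v 0 = f (tl (tl v)) * v 1 ^ 2 ∨ v 0 = -(f (tl (tl v)) * v 1 ^ 2) ∨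
      v 0 = 3 * (f (tl (tl v)) * v 1 ^ 2) ∨
      v 0 = -(3 * (f (tl (tl v)) * v 1 ^ 2))) ∧
    Three8 (v 0) ∧ Cap a (v 0) ∧ Con a (v 0) 1 ∧ Con a (v 0) (9 * g (tl (tl v)) / v 0)) ?_
  exact h1

end Vale.Agent.P027.Q
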