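import Vale.Agent.P027.Q.Frm

/-! The set of the omitted primes has triple logarithmic size. -/

set_option linter.all false

namespace Vale.Agent.P027.Q

open Filter Topology
open Vale.Agent.P027

/-- the number of levels -/
def lev (n : ℕ) : ℕ := Nat.log 2 (Nat.log 2 (Nat.log 2 (2 * n + 4))) + 2

lemma om_ge (a N i : ℕ) : 7 ^ (a + 1) * 3 ^ N ≤ Om a N i :=
  Nat.le_of_dvd (Nat.pos_of_ne_zero (om_ne a N i)) (om_dvd a N (Nat.zero_le i))

lemma lev_bound (hL : Law) {a N i n : ℕ} (hN : 16 ≤ N) (h : Om a N i ≤ 2 * n + 4) : i < lev n := by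
  rcases Nat.eq_zero_or_pos i with h0 | h0
  · unfold lev; omega
  obtain ⟨j, rfl⟩ : ∃ j, i = j + 1 := ⟨i - 1, by omega⟩
  have h1 := (om_growth hL a N hN j).trans h
  have h2 : 2 ^ 2 ^ j ≤ Nat.log 2 (2 * n + 4) := Nat.le_log_of_pow_le (by norm_num) h1
  have h3 : 2 ^ j ≤ Nat.log 2 (Nat.log 2 (2 * n + 4)) := Nat.le_log_of_pow_le (by norm_num) h2
  have h4 : j ≤ Nat.log 2 (Nat.log 2 (Nat.log 2 (2 * n + 4))) :=
    Nat.le_log_of_pow_le (by norm_num) h3
  unfold lev
  omega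

/-- the bound by the number of pairs -/
theorem card_KT_le (hL : Law) {Kl : ℕ → ℕ → ℕ → Prop} (hN : ∀ a N i, Kl a N i → 16 ≤ N)
    (huniq : ∀ a N i N' i', Kl a N i → Kl a N' i' → N = N') (n A : ℕ)
    (hA : ∀ a N i, Kl a N i → Om a N i ≤ 2 * n + 4 → a < A) :
    (KT Kl ∩ Set.Iic n).ncard ≤ A * lev n := by
  classical
  have hch : ∀ a, ∃ N, ∀ N' i, Kl a N' i → N' = N := by
    intro a
    by_cases h : ∃ N i, Kl a N i
    · obtain ⟨N, i, h⟩ := h
      exact ⟨N, fun N' i' h' => huniq a N' i' N i h' h⟩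
    · exact ⟨0, fun N' i h' => absurd ⟨N', i, h'⟩ h⟩
  choose Nf hNf using hch
  let f : ℕ × ℕ → ℕ := fun u =>
    if h : ∃ q : ℕ, q.Prime ∧ Ord q (Om u.1 (Nf u.1) u.2) then Nat.find h else 0
  let S : Finset (ℕ × ℕ) := Finset.range A ×ˢ Finset.range (lev n)
  have hsub : KT Kl ∩ Set.Iic n ⊆ (S.image f : Set ℕ) := by
    rintro q ⟨⟨hq, a, N, i, hkl, ho, hm⟩, hqn⟩
    have hb := ord_le hq ho
    have hqn' : q ≤ n := hqn
    have hOm : Om a N i ≤ 2 * n + 4 := by omega
    have hNa : N = Nf a := hNf a N i hkl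
    rw [Finset.coe_image]
    refine ⟨⟨a, i⟩, ?_, ?_⟩
    · rw [Finset.mem_coe, Finset.mem_product, Finset.mem_range, Finset.mem_range]
      exact ⟨hA a N i hkl hOm, lev_bound hL (hN a N i hkl) hOm⟩
    · subst hNa
      have hex : ∃ q : ℕ, q.Prime ∧ Ord q (Om a (Nf a) i) := ⟨q, hq, ho⟩
      show (if h : ∃ q : ℕ, q.Prime ∧ Ord q (Om a (Nf a) i) then Nat.find h else 0) = q
      rw [dif_pos hex]
      refine le_antisymm (Nat.find_min' hex ⟨hq, ho⟩) ?_
      by_contra hcon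
      push Not at hcon
      obtain ⟨k1, k2⟩ := Nat.find_spec hex
      exact hm _ hcon k1 k2
  calc (KT Kl ∩ Set.Iic n).ncard ≤ ((S.image f : Finset ℕ) : Set ℕ).ncard :=
        Set.ncard_le_ncard hsub (Finset.finite_toSet _)
    _ = (S.image f).card := Set.ncard_coe_finset _
    _ ≤ S.card := Finset.card_image_le
    _ = A * lev n := by
        simp only [S, Finset.card_product, Finset.card_range]

lemma log_log_le {x : ℕ} {y : ℝ} (h : ((Nat.log 2 x : ℕ) : ℝ) ≤ 2 * y) (hy : 1 ≤ y)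
    (hly : Real.log 2 ≤ Real.log y) :
    ((Nat.log 2 (Nat.log 2 x) : ℕ) : ℝ) ≤ 4 * Real.log y := by
  have hl2' : 1 / 2 ≤ Real.log 2 := by
    have := Real.log_two_gt_d9
    linarith
  have h1 := Real.natLog_le_logb (Nat.log 2 x) 2
  refine h1.trans ?_
  rw [Real.logb]
  have e2 : ((2 : ℕ) : ℝ) = 2 := by norm_num
  rw [e2, div_le_iff₀ (by linarith)]
  rcases Nat.eq_zero_or_pos (Nat.log 2 x) with h0 | h0
  · rw [h0, Nat.cast_zero, Real.log_zero]
    have : 0 ≤ Real.log y := Real.log_nonneg hy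
    positivity
  · have h0' : (0 : ℝ) < (Nat.log 2 x : ℕ) := by exact_mod_cast h0
    have h2 := Real.log_le_log h0' h
    rw [Real.log_mul (by norm_num) (by linarith)] at h2
    nlinarith

/-- size of the number of levels -/
lemma lev_le : ∀ᶠ n : ℕ in atTop,
    ((lev n : ℕ) : ℝ) ≤ 8 * Real.log (Real.log (Real.log n)) := by
  have t1 : Tendsto (fun n : ℕ => Real.log (n : ℝ)) atTop atTop :=
    Real.tendsto_log_atTop.comp tendsto_natCast_atTop_atTop
  have t2 : Tendsto (fun n : ℕ => Real.log (Real.log (n : ℝ))) atTop atTop :=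
    Real.tendsto_log_atTop.comp t1
  have t3 : Tendsto (fun n : ℕ => Real.log (Real.log (Real.log (n : ℝ)))) atTop atTop :=
    Real.tendsto_log_atTop.comp t2
  filter_upwards [eventually_ge_atTop 8, t1.eventually_ge_atTop 4, t2.eventually_ge_atTop 4,
    t3.eventually_ge_atTop 4] with n h8 h1 h2 h3
  have hl2 : 1 / 2 ≤ Real.log 2 := by
    have := Real.log_two_gt_d9
    linarith
  have hl2' : Real.log 2 ≤ 1 := by
    have := Real.log_two_lt_d9
    linarith
  -- first logarithm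
  have b1 : ((Nat.log 2 (2 * n + 4) : ℕ) : ℝ) ≤ 2 * (2 * Real.log n) := by
    have h4 := Real.natLog_le_logb (2 * n + 4) 2
    refine h4.trans ?_
    rw [Real.logb]
    have e2 : ((2 : ℕ) : ℝ) = 2 := by norm_num
    rw [e2, div_le_iff₀ (by linarith)]
    have h5 : ((2 * n + 4 : ℕ) : ℝ) ≤ (n : ℝ) ^ 2 := by
      have h8' : (8 : ℝ) ≤ n := by exact_mod_cast h8
      push_cast
      nlinarith
    have h6 := Real.log_le_log (by positivity) h5
    rw [Real.log_pow] at h6
    push_cast at h6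
    push_cast
    nlinarith
  -- second logarithm
  have b2 := log_log_le b1 (by linarith) (by
    rw [Real.log_mul (by norm_num) (by linarith)]
    have : 0 ≤ Real.log (Real.log n) := by linarith
    linarith)
  have b2' : ((Nat.log 2 (Nat.log 2 (2 * n + 4)) : ℕ) : ℝ) ≤ 2 * (4 * Real.log (Real.log n)) := by
    refine b2.trans ?_
    rw [Real.log_mul (by norm_num) (by linarith)]
    linarith
  have b3 := log_log_le b2' (by linarith) (by
    rw [Real.log_mul (by norm_num) (by linarith)]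
    have h4 : Real.log 4 = 2 * Real.log 2 := by
      rw [show (4 : ℝ) = 2 ^ 2 by norm_num, Real.log_pow]; norm_num
    rw [h4]
    linarith)
  have h4 : Real.log 4 = 2 * Real.log 2 := by
    rw [show (4 : ℝ) = 2 ^ 2 by norm_num, Real.log_pow]; norm_num
  rw [Real.log_mul (by norm_num) (by linarith), h4] at b3
  unfold lev
  push_cast
  linarith

theorem count (hL : Law) {g : ℕ → ℕ} (hg : Monotone g) {Kl : ℕ → ℕ → ℕ → Prop}
    (hN : ∀ a N i, Kl a N i → 16 ≤ N ∧ ∃ m ≤ N, 8 * (a + 1) ≤ g m)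
    (huniq : ∀ a N i N' i', Kl a N i → Kl a N' i' → N = N') : ∀ᶠ n : ℕ in atTop,
      ((KT Kl ∩ Set.Iic n).ncard : ℝ) ≤ g n * Real.log (Real.log (Real.log n)) := by
  filter_upwards [lev_le, eventually_ge_atTop 4] with n hn hn4
  have h1 := card_KT_le hL (fun a N i h => (hN a N i h).1) huniq n (g n / 8)
    (fun a N i hkl hOm => by
      obtain ⟨-, m, hmN, hgm⟩ := hN a N i hkl
      have h1 := om_ge a N i
      have h3 : N < 3 ^ N := Nat.lt_pow_self (by norm_num)
      have h7 : 7 ≤ 7 ^ (a + 1) := by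
        calc 7 = 7 ^ 1 := by norm_num
          _ ≤ 7 ^ (a + 1) := Nat.pow_le_pow_right (by norm_num) (by omega)
      have h4 : 7 * 3 ^ N ≤ 7 ^ (a + 1) * 3 ^ N := Nat.mul_le_mul_right _ h7
      have h5 : g m ≤ g n := hg (by omega)
      omega)
  have h2 : ((KT Kl ∩ Set.Iic n).ncard : ℝ) ≤ ((g n / 8 : ℕ) : ℝ) * (lev n : ℝ) := by
    exact_mod_cast h1
  have h4 : ((g n / 8 : ℕ) : ℝ) ≤ (g n : ℝ) / 8 := by
    have := @Nat.cast_div_le ℝ _ _ _ (g n) 8
    exact_mod_cast this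
  calc _ ≤ ((g n / 8 : ℕ) : ℝ) * (lev n : ℝ) := h2
    _ ≤ ((g n : ℝ) / 8) * (8 * Real.log (Real.log (Real.log n))) :=
        mul_le_mul h4 hn (by positivity) (by positivity)
    _ = _ := by ring

end Vale.Agent.P027.Q
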