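import Vale.Agent.P027.Q.Base

/-! Two-descent for `r^4 + 10 r^2 w^2 - 7 w^4 = s^2`. -/

set_option linter.all false

namespace Vale.Agent.P027.Q

theorem split_aux {p : ℕ} (hp : p.Prime) {X Y z j : ℕ} (hco : Nat.Coprime X Y)
    (h : X * Y = p ^ j * z ^ 4)
    (hY : Nat.Coprime p Y) : ∃ e o : ℕ, z = e * o ∧ X = p ^ j * e ^ 4 ∧ Y = o ^ 4 := by
  have hd : p ^ j ∣ X := by
    have h1 : p ^ j ∣ X * Y := ⟨_, h⟩
    exact (Nat.Coprime.pow_left j hY).dvd_of_dvd_mul_right h1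
  obtain ⟨X', rfl⟩ := hd
  have hp0 : 0 < p ^ j := pow_pos hp.pos j
  have h2 : X' * Y = z ^ 4 := by
    have h3 : p ^ j * (X' * Y) = p ^ j * z ^ 4 := by rw [← h]; ring
    exact Nat.eq_of_mul_eq_mul_left hp0 h3
  have hco' : Nat.Coprime X' Y := Nat.Coprime.coprime_dvd_left (Dvd.intro_left _ rfl) hco
  obtain ⟨e, he⟩ := exists_eq_pow_of_mul_eq_pow (a := X') (b := Y) (c := z) (k := 4)
    (by rw [show gcd X' Y = 1 from hco']; exact isUnit_one) h2
  obtain ⟨o, ho⟩ := exists_eq_pow_of_mul_eq_pow (a := Y) (b := X') (c := z) (k := 4)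
    (by rw [show gcd Y X' = 1 from hco'.symm]; exact isUnit_one) (by rw [mul_comm]; exact h2)
  refine ⟨e, o, ?_, by rw [he], ho⟩
  have : z ^ 4 = (e * o) ^ 4 := by rw [← h2, he, ho]; ring
  exact Nat.pow_left_injective (by norm_num : (4 : ℕ) ≠ 0) this

theorem split4 {p : ℕ} (hp : p.Prime) {X Y z : ℕ} (j : ℕ) (hco : Nat.Coprime X Y)
    (h : X * Y = p ^ j * z ^ 4) :
    ∃ e o : ℕ, z = e * o ∧ ((X = p ^ j * e ^ 4 ∧ Y = o ^ 4) ∨ (X = o ^ 4 ∧ Y = p ^ j * e ^ 4)) := by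
  by_cases hY : Nat.Coprime p Y
  · obtain ⟨e, o, h1, h2, h3⟩ := split_aux hp hco h hY
    exact ⟨e, o, h1, Or.inl ⟨h2, h3⟩⟩
  · have hY2 : p ∣ Y := by
      by_contra hn
      exact hY ((Nat.Prime.coprime_iff_not_dvd hp).mpr hn)
    have hX : Nat.Coprime p X := Nat.Coprime.coprime_dvd_left hY2 hco.symm
    obtain ⟨e, o, h1, h2, h3⟩ := split_aux hp hco.symm (by rw [mul_comm]; exact h) hX
    exact ⟨e, o, h1, Or.inr ⟨h3, h2⟩⟩

lemma cop7 {X Y z r w : ℕ} (hk : ∀ k : ℕ, k.Prime → k ∣ X → k ∣ Y → k ∣ r) (hz : z ∣ w)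
    (hc : Nat.Coprime r w) (h : X * Y = 7 * z ^ 4) : Nat.Coprime X Y := by
  refine Nat.coprime_of_dvd fun k hk' hkX hkY ↦ ?_
  have h1 := hk k hk' hkX hkY
  have hkw : ¬ k ∣ w := fun h2 => Nat.Prime.not_coprime_iff_dvd.mpr ⟨k, hk', h1, h2⟩ hc
  have hkz : ¬ k ∣ z := fun h2 => hkw (h2.trans hz)
  have h2 : k ^ 2 ∣ 7 * z ^ 4 := by rw [← h, sq]; exact mul_dvd_mul hkX hkY
  have h3 : Nat.Coprime (k ^ 2) (z ^ 4) :=
    Nat.Coprime.pow _ _ ((Nat.Prime.coprime_iff_not_dvd hk').2 hkz)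
  have h4 : k ^ 2 ∣ 7 := h3.dvd_of_dvd_mul_right h2
  have h5 := Nat.le_of_dvd (by norm_num) h4
  have h6 : k < 3 := by nlinarith
  have h7 := hk'.two_le
  have h8 : k = 2 := by omega
  subst h8
  omega

/-- the second step of the descent -/
lemma second {r w z : ℕ} {a b : ℤ} {k : ℕ} (hc : Nat.Coprime r w) (hz : z ∣ w) (hz0 : 0 < z)
    (hr : 0 < r) (hk0 : 0 < k)
    (h1 : (k * r - a) * (k * r + a) = 28 * (z : ℤ) ^ 4)
    (h2 : ∃ b, k * (r : ℤ) - a = 2 * b) (hodd : ∀ p : ℕ, p.Prime → (p : ℤ) ∣ (k * r - a) / 2 →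
      (p : ℤ) ∣ (k * r + a) / 2 → p ∣ k → p ∣ r) :
    ∃ f g : ℕ, z = f * g ∧ Nat.Coprime g f ∧ k * r = g ^ 4 + 7 * f ^ 4 ∧
      (a = (g : ℤ) ^ 4 - 7 * (f : ℤ) ^ 4 ∨ a = 7 * (f : ℤ) ^ 4 - (g : ℤ) ^ 4) := by
  obtain ⟨X, hX⟩ := h2
  obtain ⟨Y, hY⟩ : ∃ Y, (k : ℤ) * r + a = 2 * Y := ⟨(k : ℤ) * r - X, by linarith⟩
  have hXY : X * Y = 7 * (z : ℤ) ^ 4 := by
    rw [hX, hY] at h1
    linarith
  have hsum : X + Y = k * r := by linarith
  have hpos : 0 < X * Y := by rw [hXY]; positivity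
  have hs0 : (0 : ℤ) < k * r := by positivity
  have hX0 : 0 < X := by
    rcases (mul_pos_iff.1 hpos) with h | h
    · exact h.1
    · linarith [h.1, h.2]
  have hY0 : 0 < Y := by
    rcases (mul_pos_iff.1 hpos) with h | h
    · exact h.2
    · linarith [h.1, h.2]
  obtain ⟨X', rfl⟩ := Int.eq_ofNat_of_zero_le hX0.le
  obtain ⟨Y', rfl⟩ := Int.eq_ofNat_of_zero_le hY0.le
  have hXY' : X' * Y' = 7 * z ^ 4 := by exact_mod_cast hXY
  have hsum' : X' + Y' = k * r := by exact_mod_cast hsum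
  have hcop : Nat.Coprime X' Y' := by
    refine cop7 (r := r) (w := w) ?_ hz hc hXY'
    intro p hp h3 h4
    have h5 : p ∣ k * r := by rw [← hsum']; exact dvd_add h3 h4
    rcases (Nat.Prime.dvd_mul hp).1 h5 with h6 | h6
    · refine hodd p hp ?_ ?_ h6
      · rw [hX, Int.mul_ediv_cancel_left _ (by norm_num)]
        exact_mod_cast h3
      · rw [hY, Int.mul_ediv_cancel_left _ (by norm_num)]
        exact_mod_cast h4
    · exact h6
  obtain ⟨f, g, hfg, hcase⟩ := split4 (by norm_num : Nat.Prime 7) 1 hcop (by rw [hXY', pow_one])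
  refine ⟨f, g, hfg, ?_, ?_, ?_⟩
  · rcases hcase with ⟨h3, h4⟩ | ⟨h3, h4⟩
    · rw [h3, h4] at hcop
      have h5 := Nat.Coprime.coprime_dvd_left (Dvd.intro_left _ rfl : f ^ 4 ∣ 7 ^ 1 * f ^ 4) hcop
      exact (Nat.coprime_pow_left_iff (by norm_num) _ _).mp
        ((Nat.coprime_pow_right_iff (by norm_num) _ _).mp h5.symm)
    · rw [h3, h4] at hcop
      have h5 := Nat.Coprime.coprime_dvd_right (Dvd.intro_left _ rfl : f ^ 4 ∣ 7 ^ 1 * f ^ 4) hcop
      exact (Nat.coprime_pow_left_iff (by norm_num) _ _).mp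
        ((Nat.coprime_pow_right_iff (by norm_num) _ _).mp h5)
  · rcases hcase with ⟨h3, h4⟩ | ⟨h3, h4⟩ <;> rw [← hsum', h3, h4] <;> ring
  · rcases hcase with ⟨h3, h4⟩ | ⟨h3, h4⟩
    · left
      have e : a = (Y' : ℤ) - X' := by linarith
      rw [e, h3, h4]; push_cast; ring
    · right
      have e : a = (Y' : ℤ) - X' := by linarith
      rw [e, h3, h4]; push_cast; ring

lemma odd_sq_mod {a : ℤ} (h : a % 2 = 1) : a ^ 2 % 8 = 1 := by
  have h1 : a % 8 = 1 ∨ a % 8 = 3 ∨ a % 8 = 5 ∨ a % 8 = 7 := by omega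
  rcases h1 with h1 | h1 | h1 | h1 <;> simp [pow_succ, Int.mul_emod, h1]

/-- Two-descent. -/
theorem a_descent {r w s : ℕ} (hc : Nat.Coprime r w) (hr0 : 0 < r) (hw0 : 0 < w)
    (h : s ^ 2 + 7 * w ^ 4 = r ^ 4 + 10 * r ^ 2 * w ^ 2) :
    ∃ c d t : ℕ, Nat.Coprime c d ∧ r * (2 * c * d * t) = w * (c ^ 4 + 7 * d ^ 4) ∧
      c ^ 4 + 7 * d ^ 4 ≤ 8 * r ∧
      (t ^ 2 + 7 * d ^ 4 = c ^ 4 + 10 * c ^ 2 * d ^ 2 ∨
        t ^ 2 + c ^ 4 = 7 * d ^ 4 + 10 * c ^ 2 * d ^ 2) := by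
  have hZ : (s : ℤ) ^ 2 + 7 * (w : ℤ) ^ 4 = (r : ℤ) ^ 4 + 10 * (r : ℤ) ^ 2 * (w : ℤ) ^ 2 := by
    exact_mod_cast h
  obtain ⟨R, hR⟩ : ∃ R : ℤ, R = (r : ℤ) ^ 2 + 5 * (w : ℤ) ^ 2 := ⟨_, rfl⟩
  have hfac : (R - s) * (R + s) = 32 * (w : ℤ) ^ 4 := by rw [hR]; linear_combination -hZ
  have hRpos : 0 < R := by rw [hR]; positivity
  have hs0 : (0 : ℤ) ≤ s := by positivity
  have hw4 : (0 : ℤ) < 32 * (w : ℤ) ^ 4 := by positivity
  have hlt : 0 < R - s := by
    have : 0 < (R - s) * (R + s) := by rw [hfac]; exact hw4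
    rcases (mul_pos_iff.1 this) with h1 | h1
    · exact h1.1
    · linarith [h1.2]
  rcases Nat.even_or_odd' w with ⟨w1, hw1 | hw1⟩
  · -- w even
    have hr1 : r % 2 = 1 := by
      by_contra hcon
      have : 2 ∣ Nat.gcd r w := Nat.dvd_gcd (by omega) (by omega)
      rw [Nat.Coprime] at hc; omega
    have hRodd : R % 2 = 1 := by
      have h1 := odd_sq_mod (a := r) (by omega)
      have h2 : (w : ℤ) ^ 2 = 2 * (2 * (w1 : ℤ) ^ 2) := by rw [hw1]; push_cast; ring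
      rw [hR, h2]; omega
    have hsodd : (s : ℤ) % 2 = 1 := by
      by_contra hcon
      have h1 : (s : ℤ) % 2 = 0 := by omega
      have h2 : ((R - s) * (R + s)) % 2 = 1 := by
        rw [Int.mul_emod]
        have h3 : (R - s) % 2 = 1 := by omega
        have h4 : (R + s) % 2 = 1 := by omega
        rw [h3, h4]; norm_num
      rw [hfac] at h2
      omega
    obtain ⟨u, hu⟩ : ∃ u, R - s = 2 * u := ⟨(R - s) / 2, by omega⟩
    obtain ⟨v, hv⟩ : ∃ v, R + s = 2 * v := ⟨(R + s) / 2, by omega⟩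
    have huv : u * v = 8 * (w : ℤ) ^ 4 := by rw [hu, hv] at hfac; linarith
    have hu0 : 0 < u := by linarith
    have hv0 : 0 < v := by linarith
    obtain ⟨u', rfl⟩ := Int.eq_ofNat_of_zero_le hu0.le
    obtain ⟨v', rfl⟩ := Int.eq_ofNat_of_zero_le hv0.le
    have huv' : u' * v' = 2 ^ 3 * w ^ 4 := by exact_mod_cast huv
    have hsumuv : (u' : ℤ) + v' = R := by linarith
    have hco : Nat.Coprime u' v' := by
      refine Nat.coprime_of_dvd fun k hk hkX hkY ↦ ?_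
      have h1 : (k : ℤ) ∣ R := by
        rw [← hsumuv]; exact dvd_add (by exact_mod_cast hkX) (by exact_mod_cast hkY)
      have hk2 : k ≠ 2 := by rintro rfl; omega
      have h2 : k ∣ 2 ^ 3 * w ^ 4 := by rw [← huv']; exact hkX.mul_right _
      have h3 : k ∣ w := by
        rcases (Nat.Prime.dvd_mul hk).1 h2 with h4 | h4
        · exact absurd ((Nat.prime_dvd_prime_iff_eq hk Nat.prime_two).1 (hk.dvd_of_dvd_pow h4)) hk2
        · exact hk.dvd_of_dvd_pow h4
      have h4 : (k : ℤ) ∣ (r : ℤ) ^ 2 := by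
        have h5 : (r : ℤ) ^ 2 = R - 5 * (w : ℤ) ^ 2 := by rw [hR]; ring
        rw [h5]
        exact dvd_sub h1 (((Dvd.dvd.pow (by exact_mod_cast h3) (by norm_num))).mul_left _)
      have h5 : k ∣ r := by
        have : k ∣ r ^ 2 := by exact_mod_cast h4
        exact hk.dvd_of_dvd_pow this
      exact Nat.Prime.not_coprime_iff_dvd.mpr ⟨k, hk, h5, h3⟩ hc
    obtain ⟨e, o, hwe, hcase⟩ := split4 Nat.prime_two 3 hco huv'
    have hRe : R = 8 * (e : ℤ) ^ 4 + (o : ℤ) ^ 4 := by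
      rcases hcase with ⟨h1, h2⟩ | ⟨h1, h2⟩ <;> rw [← hsumuv, h1, h2] <;> push_cast <;> ring
    have he0 : 0 < e := Nat.pos_of_ne_zero (by rintro rfl; simp at hwe; omega)
    have ho0 : 0 < o := Nat.pos_of_ne_zero (by rintro rfl; simp at hwe; omega)
    have hwq : (w : ℤ) = e * o := by exact_mod_cast hwe
    have hoo : (o : ℤ) % 2 = 1 := by
      by_contra hcon
      obtain ⟨o', ho'⟩ : ∃ o' : ℤ, (o : ℤ) = 2 * o' := ⟨(o : ℤ) / 2, by omega⟩
      have : R = 2 * (4 * (e : ℤ) ^ 4 + 8 * o' ^ 4) := by rw [hRe, ho']; ring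
      omega
    have hee : ∃ e' : ℕ, e = 2 * e' := by
      have h1 : 2 ∣ e * o := by rw [← hwe, hw1]; exact Dvd.intro _ rfl
      rcases (Nat.Prime.dvd_mul Nat.prime_two).1 h1 with h2 | h2
      · exact h2
      · omega
    obtain ⟨e', rfl⟩ := hee
    have hre : (r : ℤ) ^ 2 = 8 * (2 * e' : ℤ) ^ 4 + (o : ℤ) ^ 4 - 5 * ((2 * e' : ℤ) * o) ^ 2 := by
      have h5 : (r : ℤ) ^ 2 = R - 5 * (w : ℤ) ^ 2 := by rw [hR]; ring
      rw [h5, hRe, hwq]; push_cast; ring
    have key : ((1 : ℕ) * (r : ℤ) - ((o : ℤ) ^ 2 - 10 * (e' : ℤ) ^ 2)) *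
        ((1 : ℕ) * r + ((o : ℤ) ^ 2 - 10 * (e' : ℤ) ^ 2)) = 28 * (e' : ℤ) ^ 4 := by
      push_cast
      linear_combination hre
    have hz : e' ∣ w := ⟨2 * o, by rw [hwe]; ring⟩
    obtain ⟨f, g, hfg, hcop, hrr, ha⟩ := second (k := 1) (b := 0) hc hz (by omega) hr0 (by norm_num)
      key (by
        have h1 := odd_sq_mod hoo
        refine ⟨((1 : ℕ) * (r : ℤ) - ((o : ℤ) ^ 2 - 10 * (e' : ℤ) ^ 2)) / 2, ?_⟩
        push_cast
        omega)
      (fun p hp _ _ hk => absurd (Nat.dvd_one.1 hk) hp.one_lt.ne')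
    refine ⟨g, f, o, hcop, ?_, ?_, ?_⟩
    · rw [one_mul] at hrr
      rw [← hrr, hwe, hfg]; ring
    · omega
    · have hfgz : (e' : ℤ) = f * g := by exact_mod_cast hfg
      rcases ha with ha | ha
      · left
        have : (o : ℤ) ^ 2 + 7 * (f : ℤ) ^ 4 = (g : ℤ) ^ 4 + 10 * (g : ℤ) ^ 2 * (f : ℤ) ^ 2 := by
          rw [hfgz] at ha
          linear_combination ha
        exact_mod_cast this
      · right
        have : (o : ℤ) ^ 2 + (g : ℤ) ^ 4 = 7 * (f : ℤ) ^ 4 + 10 * (g : ℤ) ^ 2 * (f : ℤ) ^ 2 := by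
          rw [hfgz] at ha
          linear_combination ha
        exact_mod_cast this
  · -- w odd
    have hwodd : (w : ℤ) % 2 = 1 := by omega
    rcases Nat.even_or_odd' r with ⟨r1, hr1 | hr1⟩
    · -- r even
      have hRodd : R % 2 = 1 := by
        have h1 := odd_sq_mod hwodd
        have h2 : (r : ℤ) ^ 2 = 2 * (2 * (r1 : ℤ) ^ 2) := by rw [hr1]; push_cast; ring
        rw [hR, h2]; omega
      have hsodd : (s : ℤ) % 2 = 1 := by
        by_contra hcon
        have h1 : (s : ℤ) % 2 = 0 := by omega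
        have h2 : ((R - s) * (R + s)) % 2 = 1 := by
          rw [Int.mul_emod]
          have h3 : (R - s) % 2 = 1 := by omega
          have h4 : (R + s) % 2 = 1 := by omega
          rw [h3, h4]; norm_num
        rw [hfac] at h2
        omega
      obtain ⟨u, hu⟩ : ∃ u, R - s = 2 * u := ⟨(R - s) / 2, by omega⟩
      obtain ⟨v, hv⟩ : ∃ v, R + s = 2 * v := ⟨(R + s) / 2, by omega⟩
      have huv : u * v = 8 * (w : ℤ) ^ 4 := by rw [hu, hv] at hfac; linarith
      have hu0 : 0 < u := by linarith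
      have hv0 : 0 < v := by linarith
      obtain ⟨u', rfl⟩ := Int.eq_ofNat_of_zero_le hu0.le
      obtain ⟨v', rfl⟩ := Int.eq_ofNat_of_zero_le hv0.le
      have huv' : u' * v' = 2 ^ 3 * w ^ 4 := by exact_mod_cast huv
      have hsumuv : (u' : ℤ) + v' = R := by linarith
      have hco : Nat.Coprime u' v' := by
        refine Nat.coprime_of_dvd fun k hk hkX hkY ↦ ?_
        have h1 : (k : ℤ) ∣ R := by
          rw [← hsumuv]; exact dvd_add (by exact_mod_cast hkX) (by exact_mod_cast hkY)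
        have hk2 : k ≠ 2 := by rintro rfl; omega
        have h2 : k ∣ 2 ^ 3 * w ^ 4 := by rw [← huv']; exact hkX.mul_right _
        have h3 : k ∣ w := by
          rcases (Nat.Prime.dvd_mul hk).1 h2 with h4 | h4
          · exact absurd ((Nat.prime_dvd_prime_iff_eq hk Nat.prime_two).1 (hk.dvd_of_dvd_pow h4)) hk2
          · exact hk.dvd_of_dvd_pow h4
        have h4 : (k : ℤ) ∣ (r : ℤ) ^ 2 := by
          have h5 : (r : ℤ) ^ 2 = R - 5 * (w : ℤ) ^ 2 := by rw [hR]; ring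
          rw [h5]
          exact dvd_sub h1 (((Dvd.dvd.pow (by exact_mod_cast h3) (by norm_num))).mul_left _)
        have h5 : k ∣ r := by
          have : k ∣ r ^ 2 := by exact_mod_cast h4
          exact hk.dvd_of_dvd_pow this
        exact Nat.Prime.not_coprime_iff_dvd.mpr ⟨k, hk, h5, h3⟩ hc
      obtain ⟨e, o, hwe, hcase⟩ := split4 Nat.prime_two 3 hco huv'
      have hRe : R = 8 * (e : ℤ) ^ 4 + (o : ℤ) ^ 4 := by
        rcases hcase with ⟨h1, h2⟩ | ⟨h1, h2⟩ <;> rw [← hsumuv, h1, h2] <;> push_cast <;> ring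
      have he0 : 0 < e := Nat.pos_of_ne_zero (by rintro rfl; simp at hwe; omega)
      have ho0 : 0 < o := Nat.pos_of_ne_zero (by rintro rfl; simp at hwe; omega)
      have hwq : (w : ℤ) = e * o := by exact_mod_cast hwe
      have hre : (r : ℤ) ^ 2 = 8 * (e : ℤ) ^ 4 + (o : ℤ) ^ 4 - 5 * ((e : ℤ) * o) ^ 2 := by
        have h5 : (r : ℤ) ^ 2 = R - 5 * (w : ℤ) ^ 2 := by rw [hR]; ring
        rw [h5, hRe, hwq]
      have hee : (e : ℤ) % 2 = 1 := by
        by_contra hcon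
        have h0 : (e : ℤ) % 2 = 0 := by omega
        have : (w : ℤ) % 2 = 0 := by rw [hwq, Int.mul_emod, h0]; simp
        omega
      have key : ((4 : ℕ) * (r : ℤ) - (4 * (o : ℤ) ^ 2 - 10 * (e : ℤ) ^ 2)) *
          ((4 : ℕ) * r + (4 * (o : ℤ) ^ 2 - 10 * (e : ℤ) ^ 2)) = 28 * (e : ℤ) ^ 4 := by
        push_cast
        linear_combination 16 * hre
      have hz : e ∣ w := ⟨o, hwe⟩
      obtain ⟨f, g, hfg, hcop, hrr, ha⟩ := second (k := 4) (b := 0) hc hz (by omega) hr0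
        (by norm_num) key
        ⟨2 * (r : ℤ) - (2 * (o : ℤ) ^ 2 - 5 * (e : ℤ) ^ 2), by push_cast; ring⟩
        (by
          intro p hp h1 h2 hk
          exfalso
          have hp2 : p = 2 := by
            have : p ∣ 2 ^ 2 := hk
            exact (Nat.prime_dvd_prime_iff_eq hp Nat.prime_two).1 (hp.dvd_of_dvd_pow this)
          subst hp2
          have h3 : ((4 : ℕ) * (r : ℤ) - (4 * (o : ℤ) ^ 2 - 10 * (e : ℤ) ^ 2)) / 2 =
              2 * (r : ℤ) - (2 * (o : ℤ) ^ 2 - 5 * (e : ℤ) ^ 2) := by push_cast; omega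
          rw [h3] at h1
          have h4 := odd_sq_mod hee
          push_cast at h1
          omega)
      refine ⟨g, f, 2 * o, hcop, ?_, ?_, ?_⟩
      · rw [← hrr, hwe, hfg]; ring
      · omega
      · have hfgz : (e : ℤ) = f * g := by exact_mod_cast hfg
        rcases ha with ha | ha
        · left
          have : (2 * o : ℤ) ^ 2 + 7 * (f : ℤ) ^ 4 = (g : ℤ) ^ 4 + 10 * (g : ℤ) ^ 2 * (f : ℤ) ^ 2 := by
            rw [hfgz] at ha
            linear_combination ha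
          exact_mod_cast this
        · right
          have : (2 * o : ℤ) ^ 2 + (g : ℤ) ^ 4 = 7 * (f : ℤ) ^ 4 + 10 * (g : ℤ) ^ 2 * (f : ℤ) ^ 2 := by
            rw [hfgz] at ha
            linear_combination ha
          exact_mod_cast this
    · -- both odd
      have hrodd : (r : ℤ) % 2 = 1 := by omega
      have hr8 := odd_sq_mod hrodd
      have hw8 := odd_sq_mod hwodd
      have hRm : R % 8 = 6 := by rw [hR]; omega
      have hsev : (s : ℤ) % 2 = 0 := by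
        by_contra hcon
        have h1 : (s : ℤ) % 2 = 1 := by omega
        have h2 : ((R - s) * (R + s)) % 2 = 1 := by
          rw [Int.mul_emod]
          have h3 : (R - s) % 2 = 1 := by omega
          have h4 : (R + s) % 2 = 1 := by omega
          rw [h3, h4]; norm_num
        rw [hfac] at h2
        omega
      obtain ⟨m, hm⟩ : ∃ m, R = 2 * m := ⟨R / 2, by omega⟩
      obtain ⟨σ, hσ⟩ : ∃ σ, (s : ℤ) = 2 * σ := ⟨(s : ℤ) / 2, by omega⟩
      have hmσ : (m - σ) * (m + σ) = 8 * (w : ℤ) ^ 4 := by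
        rw [hm, hσ] at hfac; linarith
      have hσodd : σ % 2 = 1 := by
        by_contra hcon
        have h2 : ((m - σ) * (m + σ)) % 2 = 1 := by
          rw [Int.mul_emod]
          have h3 : (m - σ) % 2 = 1 := by omega
          have h4 : (m + σ) % 2 = 1 := by omega
          rw [h3, h4]; norm_num
        rw [hmσ] at h2
        omega
      obtain ⟨u, hu⟩ : ∃ u, m - σ = 2 * u := ⟨(m - σ) / 2, by omega⟩
      obtain ⟨v, hv⟩ : ∃ v, m + σ = 2 * v := ⟨(m + σ) / 2, by omega⟩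
      have huv : u * v = 2 * (w : ℤ) ^ 4 := by rw [hu, hv] at hmσ; linarith
      have hu0 : 0 < u := by linarith
      have hv0 : 0 < v := by linarith
      obtain ⟨u', rfl⟩ := Int.eq_ofNat_of_zero_le hu0.le
      obtain ⟨v', rfl⟩ := Int.eq_ofNat_of_zero_le hv0.le
      have huv' : u' * v' = 2 ^ 1 * w ^ 4 := by exact_mod_cast huv
      have hsumuv : (u' : ℤ) + v' = m := by linarith
      have hco : Nat.Coprime u' v' := by
        refine Nat.coprime_of_dvd fun k hk hkX hkY ↦ ?_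
        have h1 : (k : ℤ) ∣ m := by
          rw [← hsumuv]; exact dvd_add (by exact_mod_cast hkX) (by exact_mod_cast hkY)
        have hk2 : k ≠ 2 := by rintro rfl; omega
        have h2 : k ∣ 2 ^ 1 * w ^ 4 := by rw [← huv']; exact hkX.mul_right _
        have h3 : k ∣ w := by
          rcases (Nat.Prime.dvd_mul hk).1 h2 with h4 | h4
          · exact absurd ((Nat.prime_dvd_prime_iff_eq hk Nat.prime_two).1 (hk.dvd_of_dvd_pow h4)) hk2
          · exact hk.dvd_of_dvd_pow h4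
        have h4 : (k : ℤ) ∣ (r : ℤ) ^ 2 := by
          have h5 : (r : ℤ) ^ 2 = 2 * m - 5 * (w : ℤ) ^ 2 := by rw [← hm, hR]; ring
          rw [h5]
          exact dvd_sub (h1.mul_left _)
            (((Dvd.dvd.pow (by exact_mod_cast h3) (by norm_num))).mul_left _)
        have h5 : k ∣ r := by
          have : k ∣ r ^ 2 := by exact_mod_cast h4
          exact hk.dvd_of_dvd_pow this
        exact Nat.Prime.not_coprime_iff_dvd.mpr ⟨k, hk, h5, h3⟩ hc
      obtain ⟨e, o, hwe, hcase⟩ := split4 Nat.prime_two 1 hco huv'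
      have hRe : m = 2 * (e : ℤ) ^ 4 + (o : ℤ) ^ 4 := by
        rcases hcase with ⟨h1, h2⟩ | ⟨h1, h2⟩ <;> rw [← hsumuv, h1, h2] <;> push_cast <;> ring
      have he0 : 0 < e := Nat.pos_of_ne_zero (by rintro rfl; simp at hwe; omega)
      have ho0 : 0 < o := Nat.pos_of_ne_zero (by rintro rfl; simp at hwe; omega)
      have hwq : (w : ℤ) = e * o := by exact_mod_cast hwe
      have hre : (r : ℤ) ^ 2 = 4 * (e : ℤ) ^ 4 + 2 * (o : ℤ) ^ 4 - 5 * ((e : ℤ) * o) ^ 2 := by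
        have h5 : (r : ℤ) ^ 2 = 2 * m - 5 * (w : ℤ) ^ 2 := by rw [← hm, hR]; ring
        rw [h5, hRe, hwq]; ring
      have hoo : (o : ℤ) % 2 = 1 := by
        by_contra hcon
        have h0 : (o : ℤ) % 2 = 0 := by omega
        have : (w : ℤ) % 2 = 0 := by rw [hwq, Int.mul_emod, h0]; simp
        omega
      have key : ((8 : ℕ) * (r : ℤ) - (16 * (e : ℤ) ^ 2 - 10 * (o : ℤ) ^ 2)) *
          ((8 : ℕ) * r + (16 * (e : ℤ) ^ 2 - 10 * (o : ℤ) ^ 2)) = 28 * (o : ℤ) ^ 4 := by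
        push_cast
        linear_combination 64 * hre
      have hz : o ∣ w := ⟨e, by rw [hwe]; ring⟩
      obtain ⟨f, g, hfg, hcop, hrr, ha⟩ := second (k := 8) (b := 0) hc hz (by omega) hr0
        (by norm_num) key
        ⟨4 * (r : ℤ) - (8 * (e : ℤ) ^ 2 - 5 * (o : ℤ) ^ 2), by push_cast; ring⟩
        (by
          intro p hp h1 h2 hk
          exfalso
          have hp2 : p = 2 := by
            have : p ∣ 2 ^ 3 := hk
            exact (Nat.prime_dvd_prime_iff_eq hp Nat.prime_two).1 (hp.dvd_of_dvd_pow this)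
          subst hp2
          have h3 : ((8 : ℕ) * (r : ℤ) - (16 * (e : ℤ) ^ 2 - 10 * (o : ℤ) ^ 2)) / 2 =
              4 * (r : ℤ) - (8 * (e : ℤ) ^ 2 - 5 * (o : ℤ) ^ 2) := by push_cast; omega
          rw [h3] at h1
          have h4 := odd_sq_mod hoo
          push_cast at h1
          omega)
      refine ⟨g, f, 4 * e, hcop, ?_, ?_, ?_⟩
      · have : r * (2 * g * f * (4 * e)) = (8 * r) * (e * (f * g)) := by ring
        rw [this, hrr, hwe, hfg]; ring
      · omega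
      · have hfgz : (o : ℤ) = f * g := by exact_mod_cast hfg
        rcases ha with ha | ha
        · left
          have : (4 * e : ℤ) ^ 2 + 7 * (f : ℤ) ^ 4 = (g : ℤ) ^ 4 + 10 * (g : ℤ) ^ 2 * (f : ℤ) ^ 2 := by
            rw [hfgz] at ha
            linear_combination ha
          exact_mod_cast this
        · right
          have : (4 * e : ℤ) ^ 2 + (g : ℤ) ^ 4 = 7 * (f : ℤ) ^ 4 + 10 * (g : ℤ) ^ 2 * (f : ℤ) ^ 2 := by
            rw [hfgz] at ha
            linear_combination ha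
          exact_mod_cast this

end Vale.Agent.P027.Q
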