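import Vale.Agent.P027.Q.FrmC
import Vale.Agent.P027.H790.Prim
import Vale.Agent.P027.R2.H250.IntP

/-! A Diophantine relation over the rationals with chains of every length, in which the heights grow
at least like a four-fold exponential function. -/

set_option linter.all false

namespace Vale.Agent.P027.Q

open Vale.Agent.P027

/-- the first coordinate of the double of a point with first coordinate `-s ^ 2` -/
def dbl (s : ℚ) : ℚ := (s ^ 4 + 7) ^ 2 / (4 * (-s ^ 6 + 10 * s ^ 4 + 7 * s ^ 2))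

/-- `s` belongs to an odd index divisible by `7` and `3 ^ 16` -/
def Bs (s : ℚ) : Prop := s ≠ 0 ∧ ∃ V : E.Point, xc V = -s ^ 2 ∧
  0 ≤ padicValRat 7 (1 / (7 ^ 4 * xc (8 • V))) ∧ 0 ≤ padicValRat 3 (1 / (3 ^ 34 * xc (6 • V)))

/-- the relation -/
def RH (s s' : ℚ) : Prop := Bs s ∧ Bs s' ∧ St s' (dbl s / dbl s')

lemma xx_dbl_eq {n : ℕ} (hn : n ≠ 0) {s : ℚ} (h : xx n = -s ^ 2) : xx (2 * n) = dbl s := by
  have h1 := hasX_two_smul (hasX_xx hn) (xx_ne_zero hn)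
  have e1 : (n : ℤ) • P0 + (n : ℤ) • P0 = ((2 * n : ℕ) : ℤ) • P0 := by
    rw [← add_zsmul]
    congr 1
    push_cast
    ring
  rw [e1] at h1
  have h2 : xx (2 * n) = _ := (hasX_xx (mul_ne_zero two_ne_zero hn)).unique h1
  rw [h2, h]
  unfold dbl
  congr 1 <;> ring

/-- the number of the index -/
lemma bs_index {s : ℚ} (h : Bs s) : ∃ n : ℕ, n % 2 = 1 ∧ xx n = -s ^ 2 ∧ Om 0 16 0 ∣ n := by
  have f3 := Fact.mk Nat.prime_three
  have f7 : Fact (Nat.Prime 7) := ⟨by norm_num⟩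
  obtain ⟨hs, V, hV, h7, h3⟩ := h
  obtain ⟨hV0, n, hn, hVn⟩ := odd_index hs hV
  have hn0 : n ≠ 0 := by omega
  rw [xc_smul_eq hVn hn0 hV0] at h7 h3
  have x8 : xx (8 * n) ≠ 0 := xx_ne_zero (mul_ne_zero (by norm_num) hn0)
  have x6 : xx (6 * n) ≠ 0 := xx_ne_zero (mul_ne_zero (by norm_num) hn0)
  have v8 : padicValRat 7 (xx (8 * n)) = -2 - 2 * (padicValNat 7 n : ℤ) := by
    have := val_7 (k := (n : ℤ)) (by exact_mod_cast hn0)
    rw [padicValInt.of_nat] at this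
    exact this
  have v6 : padicValRat 3 (xx (6 * n)) = -2 - 2 * (padicValNat 3 n : ℤ) := by
    have := val_3 (k := (n : ℤ)) (by exact_mod_cast hn0)
    rw [padicValInt.of_nat] at this
    exact this
  have e7 : padicValRat 7 ((7 : ℚ) ^ 4) = 4 := by
    have := H123.v_pow_self 7 4
    exact_mod_cast this
  have e3 : padicValRat 3 ((3 : ℚ) ^ 34) = 34 := by
    have := H123.v_pow_self 3 34
    exact_mod_cast this
  rw [H123.val_one_div, padicValRat.mul (by norm_num) x8, e7, v8] at h7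
  rw [H123.val_one_div, padicValRat.mul (by norm_num) x6, e3, v6] at h3
  refine ⟨n, hn, by rw [← hVn]; exact hV, ?_⟩
  show 7 ^ (0 + 1) * 3 ^ 16 ∣ n
  have hco : Nat.Coprime (7 ^ (0 + 1)) (3 ^ 16) := Nat.Coprime.pow _ _ (by norm_num)
  refine hco.mul_dvd_of_dvd_of_dvd ?_ ?_
  · exact dvd_trans (pow_dvd_pow 7 (by omega)) (pow_padicValNat_dvd (p := 7) (n := n))
  · exact dvd_trans (pow_dvd_pow 3 (by omega)) (pow_padicValNat_dvd (p := 3) (n := n))

lemma bs_of_index {s : ℚ} (hs : s ≠ 0) {n : ℕ} (hn : n ≠ 0) (h : xx n = -s ^ 2) (h7 : 7 ∣ n)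
    (h3 : 3 ^ 16 ∣ n) : Bs s := by
  have f3 := Fact.mk Nat.prime_three
  have f7 : Fact (Nat.Prime 7) := ⟨by norm_num⟩
  refine ⟨hs, (n : ℤ) • P0, h, ?_, ?_⟩
  · rw [xc_smul_P0]
    have x8 : xx (8 * n) ≠ 0 := xx_ne_zero (mul_ne_zero (by norm_num) hn)
    have v8 : padicValRat 7 (xx (8 * n)) = -2 - 2 * (padicValNat 7 n : ℤ) := by
      have := val_7 (k := (n : ℤ)) (by exact_mod_cast hn)
      rw [padicValInt.of_nat] at this
      exact this
    have e7 : padicValRat 7 ((7 : ℚ) ^ 4) = 4 := by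
      have := H123.v_pow_self 7 4
      exact_mod_cast this
    rw [H123.val_one_div, padicValRat.mul (by norm_num) x8, e7, v8]
    have := one_le_padicValNat_of_dvd (p := 7) hn h7
    omega
  · rw [xc_smul_P0]
    have x6 : xx (6 * n) ≠ 0 := xx_ne_zero (mul_ne_zero (by norm_num) hn)
    have v6 : padicValRat 3 (xx (6 * n)) = -2 - 2 * (padicValNat 3 n : ℤ) := by
      have := val_3 (k := (n : ℤ)) (by exact_mod_cast hn)
      rw [padicValInt.of_nat] at this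
      exact this
    have e3 : padicValRat 3 ((3 : ℚ) ^ 34) = 34 := by
      have := H123.v_pow_self 3 34
      exact_mod_cast this
    rw [H123.val_one_div, padicValRat.mul (by norm_num) x6, e3, v6]
    have : 16 ≤ padicValNat 3 n := by
      rcases (padicValNat_dvd_iff (p := 3) 16 n).1 h3 with h | h
      · exact absurd h hn
      · exact h
    omega

/-- the relation is Diophantine -/
theorem dio_bs {f : (ℕ → ℚ) → ℚ} (hf : DioFn f) : Dio (fun v => Bs (f v)) := by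
  have i7 : ∀ {f : (ℕ → ℚ) → ℚ}, DioFn f → Dio (fun v => 0 ≤ padicValRat 7 (f v)) :=
    fun hf => T2.dio_intp (by norm_num) hf
  have i3 : ∀ {f : (ℕ → ℚ) → ℚ}, DioFn f → Dio (fun v => 0 ≤ padicValRat 3 (f v)) :=
    fun hf => T2.dio_intp Nat.prime_three hf
  have fng : ∀ {f : (ℕ → ℚ) → ℚ}, DioFn f → DioFn (fun v => -f v) := fun hf => by
    simpa using zero_fn.sub hf
  unfold Bs
  refine (Dio.ne hf zero_fn).and ?_
  have pV : DPt (fun v => dec (v 0) (v 1)) := DPt.dec (DioFn.var 0) (DioFn.var 1)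
  have c7 : DioFn (fun _ => (7 : ℚ) ^ 4) := (lit_fn 7).pow 4
  have c3 : DioFn (fun _ => (3 : ℚ) ^ 34) := (lit_fn 3).pow 34
  have key : Dio (fun v => xc (dec (v 0) (v 1)) = -(f (tl (tl v))) ^ 2 ∧
      0 ≤ padicValRat 7 (1 / (7 ^ 4 * xc (8 • dec (v 0) (v 1)))) ∧
      0 ≤ padicValRat 3 (1 / (3 ^ 34 * xc (6 • dec (v 0) (v 1))))) :=
    (Dio.eq pV.xc (fng (hf.tl.tl.pow 2))).and
      ((i7 (one_fn.div (c7.mul (pV.nsmul 8).xc))).and (i3 (one_fn.div (c3.mul (pV.nsmul 6).xc))))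
  have h : Dio (fun v => ∃ y x, xc (dec x y) = -(f v) ^ 2 ∧
      0 ≤ padicValRat 7 (1 / (7 ^ 4 * xc (8 • dec x y))) ∧
      0 ≤ padicValRat 3 (1 / (3 ^ 34 * xc (6 • dec x y)))) :=
    Dio.ex (S := fun y v => ∃ x, xc (dec x y) = -(f v) ^ 2 ∧
      0 ≤ padicValRat 7 (1 / (7 ^ 4 * xc (8 • dec x y))) ∧
      0 ≤ padicValRat 3 (1 / (3 ^ 34 * xc (6 • dec x y))))
      (Dio.ex (S := fun x v => xc (dec x (v 0)) = -(f (tl v)) ^ 2 ∧
      0 ≤ padicValRat 7 (1 / (7 ^ 4 * xc (8 • dec x (v 0)))) ∧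
      0 ≤ padicValRat 3 (1 / (3 ^ 34 * xc (6 • dec x (v 0))))) key)
  refine h.congr (fun v => ⟨?_, ?_⟩)
  · rintro ⟨P, hP⟩
    obtain ⟨x, y, e⟩ := exists_dec P
    exact ⟨y, x, by rw [e]; exact hP⟩
  · rintro ⟨y, x, h⟩
    exact ⟨_, h⟩

theorem dio_rh {f g : (ℕ → ℚ) → ℚ} (hf : DioFn f) (hg : DioFn g) :
    Dio (fun v => RH (f v) (g v)) := by
  have fng : ∀ {f : (ℕ → ℚ) → ℚ}, DioFn f → DioFn (fun v => -f v) := fun hf => by
    simpa using zero_fn.sub hf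
  have fd : ∀ {f : (ℕ → ℚ) → ℚ}, DioFn f → DioFn (fun v => dbl (f v)) := fun hf =>
    (((hf.pow 4).add (lit_fn 7)).pow 2).div ((lit_fn 4).mul (((fng (hf.pow 6)).add
      ((lit_fn 10).mul (hf.pow 4))).add ((lit_fn 7).mul (hf.pow 2))))
  exact (dio_bs hf).and ((dio_bs hg).and (dio_st hg ((fd hf).div (fd hg))))

/-- chains of every length exist -/
theorem rh_chain (hL : Law) : ∃ s : ℕ → ℚ, ∀ j, RH (s j) (s (j + 1)) := by
  have h : ∀ j, ∃ s : ℚ, s ≠ 0 ∧ xx (Om 0 16 j) = -s ^ 2 :=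
    fun j => law_s hL (Nat.odd_iff.1 (om_odd 0 16 j))
  choose s hs0 hs using h
  have hb : ∀ j, Bs (s j) := by
    intro j
    have h0 : Om 0 16 0 ∣ Om 0 16 j := om_dvd 0 16 (Nat.zero_le j)
    have h1 : (7 ^ (0 + 1) * 3 ^ 16) ∣ Om 0 16 j := h0
    refine bs_of_index (hs0 j) (om_ne 0 16 j) (hs j) ?_ ?_
    · exact dvd_trans (by norm_num) h1
    · exact dvd_trans (dvd_mul_left _ _) h1
  refine ⟨s, fun j => ⟨hb j, hb (j + 1), ?_⟩⟩
  rw [← xx_dbl_eq (om_ne 0 16 j) (hs j), ← xx_dbl_eq (om_ne 0 16 (j + 1)) (hs (j + 1))]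
  refine step_complete hL (om_odd 0 16 j) ?_ (hs0 (j + 1)) (hs (j + 1))
  apply dvd_of_one_le_padicValNat
  rw [om_v3]
  norm_num

/-- divisibilities in a chain -/
theorem rh_index {s : ℕ → ℚ} {m : ℕ} (h : ∀ j < m, RH (s j) (s (j + 1))) (hm : 1 ≤ m) :
    ∃ n : ℕ, n % 2 = 1 ∧ xx n = -(s m) ^ 2 ∧ Om 0 16 m ∣ n := by
  have hb : ∀ j, j ≤ m → Bs (s j) := by
    intro j hj
    rcases Nat.eq_zero_or_pos j with h0 | h0
    · rw [h0]; exact (h 0 (by omega)).1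
    · have := (h (j - 1) (by omega)).2.1
      rwa [Nat.sub_add_cancel h0] at this
  have hex : ∀ j, ∃ n : ℕ, j ≤ m → (n % 2 = 1 ∧ xx n = -(s j) ^ 2 ∧ Om 0 16 0 ∣ n) := by
    intro j
    by_cases hj : j ≤ m
    · obtain ⟨n, hn⟩ := bs_index (hb j hj)
      exact ⟨n, fun _ => hn⟩
    · exact ⟨0, fun h => absurd h hj⟩
  choose n hn using hex
  have key : ∀ i, ∀ j, i ≤ j → j ≤ m → Om 0 16 i ∣ n j := by
    intro i
    induction i with
    | zero => exact fun j _ hj => (hn j hj).2.2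
    | succ i ih =>
      intro j hij hj
      obtain ⟨k, rfl⟩ : ∃ k, j = k + 1 := ⟨j - 1, by omega⟩
      have h1 := ih k (by omega) (by omega)
      have h2 := ih (k + 1) (by omega) hj
      obtain ⟨o1, e1, -⟩ := hn k (by omega)
      obtain ⟨o2, e2, -⟩ := hn (k + 1) hj
      have hk0 : n k ≠ 0 := by omega
      have hk1 : n (k + 1) ≠ 0 := by omega
      have hst := (h k (by omega)).2.2
      rw [← xx_dbl_eq hk0 e1, ← xx_dbl_eq hk1 e2] at hst
      exact step_sound h1 h2 hk0 (Nat.odd_iff.2 o2) (hb (k + 1) hj).1 e2 hst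
  exact ⟨n m, (hn m le_rfl).1, (hn m le_rfl).2.1, key m m le_rfl le_rfl⟩

/-- the height of a rational number -/
lemma hq_sq {x s : ℚ} (h : x = -s ^ 2) : Hq x = Hq s ^ 2 := by
  unfold Hq
  rw [h, Rat.neg_num, Rat.neg_den, Int.natAbs_neg, Rat.num_pow, Rat.den_pow, Int.natAbs_pow]
  rcases le_total s.num.natAbs s.den with h1 | h1
  · rw [max_eq_right h1, max_eq_right (Nat.pow_le_pow_left h1 2)]
  · rw [max_eq_left h1, max_eq_left (Nat.pow_le_pow_left h1 2)]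

/-- the heights in a chain -/
theorem rh_height (hL : Law) : ∃ m₀ : ℕ, ∀ (s : ℕ → ℚ) (m : ℕ), m₀ ≤ m →
    (∀ j < m, RH (s j) (s (j + 1))) → 2 ^ (2 ^ (2 ^ (2 ^ (m - 1)))) ≤ Hq (s m) := by
  obtain ⟨κ, C, hκ, hC0, hC⟩ := growth
  obtain ⟨N, hN⟩ := exists_nat_gt ((C + 2) / κ + 1)
  refine ⟨N + 1, fun s m hm h => ?_⟩
  obtain ⟨n, hn, hx, hd⟩ := rh_index h (by omega)
  have hn0 : n ≠ 0 := by omega
  obtain ⟨j, rfl⟩ : ∃ j, m = j + 1 := ⟨m - 1, by omega⟩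
  have h1 := om_growth hL 0 16 (by norm_num) j
  have h2 : Om 0 16 (j + 1) ≤ n := Nat.le_of_dvd (by omega) hd
  rw [Nat.add_sub_cancel]
  refine le_trans (Nat.pow_le_pow_right (by norm_num) (h1.trans h2)) ?_
  -- now `2 ^ n ≤ Hq (s m)`
  have hjn : N ≤ n := by
    have a1 : j < 2 ^ j := Nat.lt_pow_self (by norm_num)
    have a2 : 2 ^ j < 2 ^ (2 ^ j) := Nat.lt_pow_self (by norm_num)
    have a3 : 2 ^ (2 ^ j) < 2 ^ (2 ^ (2 ^ j)) := Nat.lt_pow_self (by norm_num)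
    omega
  have h3 := hC n (xx n) (hasX_xx hn0)
  rw [abs_le] at h3
  have h4 : Real.log (Hq (xx n)) = 2 * Real.log (Hq (s (j + 1))) := by
    rw [hq_sq hx]
    push_cast
    rw [Real.log_pow]
    norm_num
  rw [h4] at h3
  have hnN : ((C + 2) / κ + 1 : ℝ) < n := lt_of_lt_of_le hN (by exact_mod_cast hjn)
  have hn1 : (1 : ℝ) ≤ n := by
    have : 1 ≤ n := by omega
    exact_mod_cast this
  have h5 : (C + 2) < κ * n := by
    have : (C + 2) / κ < n := by linarith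
    rw [div_lt_iff₀ hκ] at this
    linarith
  have h6 : C + 2 * (n : ℝ) ≤ κ * (n : ℝ) ^ 2 := by nlinarith
  have h7 : (n : ℝ) * Real.log 2 ≤ Real.log (Hq (s (j + 1))) := by
    have hl2 : Real.log 2 ≤ 1 := by
      have := Real.log_two_lt_d9
      linarith
    have h8 : (n : ℝ) * Real.log 2 ≤ n := by nlinarith
    have h9 : ((n : ℤ) : ℝ) = n := by norm_num
    rw [h9] at h3
    linarith [h3.1]
  have hpos : (0 : ℝ) < Hq (s (j + 1)) := by
    have : 0 < Hq (s (j + 1)) := lt_of_lt_of_le (s (j + 1)).den_pos (le_max_right _ _)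
    exact_mod_cast this
  have h8 : Real.log ((2 : ℝ) ^ n) ≤ Real.log (Hq (s (j + 1))) := by
    rw [Real.log_pow]
    exact h7
  have h9 := (Real.log_le_log_iff (by positivity) hpos).1 h8
  exact_mod_cast h9

end Vale.Agent.P027.Q
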