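import Vale.Agent.P027.Q.Vis2

/-! Growth of the numbers of visible primes. -/

set_option linter.all false

namespace Vale.Agent.P027.Q

open Vale.Agent.P027

/-- the number of inert primes with odd multiplicity -/
lemma parity_chi {d : ℕ} (hd : d % 2 = 1) :
    Odd (d.primeFactors.filter (fun q => (q % 8 = 3 ∨ q % 8 = 5) ∧ padicValNat q d % 2 = 1)).card ↔
      (d % 8 = 3 ∨ d % 8 = 5) := by
  have hd0 : d ≠ 0 := by omega
  have h1 : ZMod.χ₈ (d : ZMod 8) = ∏ p ∈ d.primeFactors, ZMod.χ₈ (p : ZMod 8) ^ padicValNat p d := by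
    conv_lhs => rw [← Nat.factorization_prod_pow_eq_self hd0]
    rw [Finsupp.prod, Nat.support_factorization, Nat.cast_prod, map_prod]
    refine Finset.prod_congr rfl (fun p hp => ?_)
    rw [Nat.cast_pow, map_pow, Nat.factorization_def _ (Nat.prime_of_mem_primeFactors hp)]
  have h2 : ∏ p ∈ d.primeFactors, ZMod.χ₈ (p : ZMod 8) ^ padicValNat p d =
      (-1) ^ (d.primeFactors.filter
        (fun q => (q % 8 = 3 ∨ q % 8 = 5) ∧ padicValNat q d % 2 = 1)).card := by
    rw [← Finset.prod_const, Finset.prod_filter]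
    refine Finset.prod_congr rfl (fun p hp => ?_)
    have hpp := Nat.prime_of_mem_primeFactors hp
    have hpd := Nat.dvd_of_mem_primeFactors hp
    have hp2 : p % 2 = 1 := by
      rcases hpp.eq_two_or_odd with h | h
      · subst h; omega
      · exact h
    by_cases hin : p % 8 = 3 ∨ p % 8 = 5
    · rw [chi8_inert hin]
      by_cases hv : padicValNat p d % 2 = 1
      · rw [if_pos ⟨hin, hv⟩, Odd.neg_one_pow (Nat.odd_iff.2 hv)]
      · rw [if_neg (fun h => hv h.2), Even.neg_one_pow (Nat.even_iff.2 (by omega))]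
    · rw [if_neg (fun h => hin h.1)]
      have h17 : p % 8 = 1 ∨ p % 8 = 7 := by omega
      have : ZMod.χ₈ (p : ZMod 8) = 1 := by
        rw [ZMod.χ₈_nat_eq_if_mod_eight]
        rw [if_neg (by omega), if_pos h17]
      rw [this, one_pow]
  rw [h2] at h1
  have h3 : ZMod.χ₈ (d : ZMod 8) = if d % 2 = 0 then 0 else if d % 8 = 1 ∨ d % 8 = 7 then 1 else -1 :=
    ZMod.χ₈_nat_eq_if_mod_eight d
  rw [if_neg (by omega)] at h3
  constructor
  · intro ho
    rw [Odd.neg_one_pow ho] at h1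
    rw [h1] at h3
    by_contra hcon
    rw [if_pos (by omega)] at h3
    exact absurd h3 (by norm_num)
  · intro h
    rw [if_neg (by omega)] at h3
    by_contra hcon
    rw [Nat.not_odd_iff_even] at hcon
    rw [Even.neg_one_pow hcon] at h1
    rw [h1] at h3
    exact absurd h3 (by norm_num)

/-- the inert primes with odd multiplicity in the denominator -/
noncomputable def VD (n : ℕ) : Finset ℕ :=
  (xx n).den.primeFactors.filter (fun q => (q % 8 = 3 ∨ q % 8 = 5) ∧ wt q n % 2 = 1)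

lemma val_neg_iff {q : ℕ} (hq : q.Prime) {x : ℚ} (hx : x ≠ 0) :
    padicValRat q x < 0 ↔ q ∣ x.den := by
  have := Fact.mk hq
  constructor
  · intro h
    by_contra hcon
    have h1 : padicValNat q x.den = 0 := padicValNat.eq_zero_of_not_dvd hcon
    rw [padicValRat, h1, Nat.cast_zero] at h
    have := Int.natCast_nonneg (padicValInt q x.num)
    omega
  · intro h
    have h1 : 1 ≤ padicValNat q x.den := one_le_padicValNat_of_dvd x.den_ne_zero h
    have h2 : ¬ (q : ℤ) ∣ x.num := by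
      intro h3
      have h4 : q ∣ x.num.natAbs := Int.natCast_dvd.1 h3
      have h5 := Nat.dvd_gcd h4 h
      rw [x.reduced] at h5
      exact hq.one_lt.ne' (Nat.dvd_one.1 h5)
    rw [padicValRat, padicValInt.eq_zero_of_not_dvd h2, Nat.cast_zero]
    omega

lemma mem_VD {q n : ℕ} (hn : n ≠ 0) :
    q ∈ VD n ↔ Inert q ∧ padicValRat q (xx n) < 0 ∧ Odd (wt q n) := by
  unfold VD
  rw [Finset.mem_filter, Nat.mem_primeFactors]
  constructor
  · rintro ⟨⟨h1, h2, -⟩, h3, h4⟩
    exact ⟨⟨h1, h3⟩, (val_neg_iff h1 (xx_ne_zero hn)).2 h2, Nat.odd_iff.2 h4⟩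
  · rintro ⟨⟨h1, h2⟩, h3, h4⟩
    exact ⟨⟨h1, (val_neg_iff h1 (xx_ne_zero hn)).1 h3, (xx n).den_ne_zero⟩, h2, Nat.odd_iff.1 h4⟩

theorem vd_parity (hL : Law) {n : ℕ} (hn : n % 2 = 1) :
    Odd (VD n).card ↔ (n % 16 = 5 ∨ n % 16 = 7 ∨ n % 16 = 9 ∨ n % 16 = 11) := by
  obtain ⟨c, d, hc, hd, hcop, hx, hmod⟩ := hL n hn
  have hn0 : n ≠ 0 := by omega
  have hc0' : c ≠ 0 := by omega
  have hd0' : d ≠ 0 := by omega
  have hc0 : (c : ℚ) ≠ 0 := by exact_mod_cast hc0'
  have hd0 : (d : ℚ) ≠ 0 := by exact_mod_cast hd0'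
  have hval : ∀ q : ℕ, q.Prime → padicValRat q (xx n) =
      2 * (padicValNat q c : ℤ) - 2 * (padicValNat q d : ℤ) := by
    intro q hq
    have := Fact.mk hq
    rw [(wt_eq hq (div_ne_zero hc0 hd0) hx).1, padicValRat.div hc0 hd0, padicValRat.of_nat,
      padicValRat.of_nat]
    ring
  have hex : ∀ q : ℕ, q.Prime → q ∣ d → padicValNat q c = 0 := by
    intro q hq h
    apply padicValNat.eq_zero_of_not_dvd
    intro h1
    have h5 := Nat.dvd_gcd h1 h
    rw [hcop] at h5
    exact hq.one_lt.ne' (Nat.dvd_one.1 h5)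
  have hset : VD n = d.primeFactors.filter
      (fun q => (q % 8 = 3 ∨ q % 8 = 5) ∧ padicValNat q d % 2 = 1) := by
    ext q
    rw [mem_VD hn0, Finset.mem_filter, Nat.mem_primeFactors]
    constructor
    · rintro ⟨⟨h1, h2⟩, h3, h4⟩
      have := Fact.mk h1
      have e := hval q h1
      have hqd : q ∣ d := by
        by_contra hcon
        rw [padicValNat.eq_zero_of_not_dvd hcon, Nat.cast_zero] at e
        rw [e] at h3
        have := Int.natCast_nonneg (padicValNat q c)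
        linarith
      refine ⟨⟨h1, hqd, hd0'⟩, h2, ?_⟩
      unfold wt at h4
      rw [e, hex q h1 hqd, Nat.odd_iff] at h4
      omega
    · rintro ⟨⟨h1, h2, -⟩, h3, h4⟩
      have := Fact.mk h1
      have e := hval q h1
      have h5 : 1 ≤ padicValNat q d := one_le_padicValNat_of_dvd hd0' h2
      rw [hex q h1 h2] at e
      refine ⟨⟨h1, h3⟩, ?_, ?_⟩
      · rw [e]
        rw [Nat.cast_zero]
        omega
      · unfold wt
        rw [e, Nat.odd_iff]
        omega
  rw [hset, parity_chi hd]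
  omega

lemma not_dv_three {n : ℕ} (hn : n % 2 = 1) : ¬ padicValRat 3 (xx n) < 0 := by
  intro h
  have hn0 : n ≠ 0 := by omega
  obtain ⟨M, hM⟩ := exists_ord 3 Nat.prime_three
  have h6 : (M : ℤ) ∣ 6 := (hM 6).1 (Or.inr (by rw [val_six]; norm_num))
  have h2 : ¬ (M : ℤ) ∣ 2 := by
    intro hd
    rcases (hM 2).2 hd with h1 | h1
    · norm_num at h1
    · rw [xc_of_hasX hasX_2] at h1
      simp at h1
  have h3 : ¬ (M : ℤ) ∣ 3 := by
    intro hd
    rcases (hM 3).2 hd with h1 | h1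
    · norm_num at h1
    · rw [xc_of_hasX hasX_3] at h1
      have := Fact.mk Nat.prime_three
      rw [padicValRat.neg, v39] at h1
      norm_num at h1
  have hMn : (M : ℤ) ∣ n := (hM n).1 (Or.inr h)
  have hM6 : M ∣ 6 := by exact_mod_cast h6
  have hM2 : ¬ M ∣ 2 := by
    intro h; exact h2 (by exact_mod_cast h)
  have hM3 : ¬ M ∣ 3 := by
    intro h; exact h3 (by exact_mod_cast h)
  have hMle : M ≤ 6 := Nat.le_of_dvd (by norm_num) hM6
  have hMn' : M ∣ n := by exact_mod_cast hMn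
  interval_cases M
  · omega
  · exact hM2 (by norm_num)
  · exact hM2 (by norm_num)
  · exact hM3 (by norm_num)
  · omega
  · omega
  · omega

lemma not_dv_one (q : ℕ) : ¬ Dv q 1 := by
  rintro (h | h)
  · norm_num at h
  · rw [xc_of_hasX hasX_1] at h
    simp at h

lemma vd_ne_three {q n : ℕ} (hn : n % 2 = 1) (h : q ∈ VD n) : q ≠ 3 := by
  rintro rfl
  exact not_dv_three hn ((mem_VD (by omega)).1 h).2.1

lemma vd_mul {q m k : ℕ} (hm : m ≠ 0) (hk : k ≠ 0) (hqk : ¬ q ∣ k) (h : q ∈ VD m) :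
    q ∈ VD (m * k) := by
  obtain ⟨h1, h2, h3⟩ := (mem_VD hm).1 h
  have h4 := v_mul_neg h1.1 hm hk h2
  rw [padicValNat.eq_zero_of_not_dvd hqk, Nat.cast_zero] at h4
  have h5 : padicValRat q (xx (m * k)) = padicValRat q (xx m) := by
    rw [h4]; ring
  refine (mem_VD (mul_ne_zero hm hk)).2 ⟨h1, by rw [h5]; exact h2, ?_⟩
  unfold wt
  rw [h5]
  exact h3

lemma vd_of_mul {q m k : ℕ} (hm : m ≠ 0) (hk : k ≠ 0) (hqk : ¬ q ∣ k) (hdv : Dv q m)
    (h : q ∈ VD (m * k)) : q ∈ VD m := by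
  obtain ⟨h1, h2, h3⟩ := (mem_VD (mul_ne_zero hm hk)).1 h
  have hdv' := (dv_xx hm).1 hdv
  have h4 := v_mul_neg h1.1 hm hk hdv'
  rw [padicValNat.eq_zero_of_not_dvd hqk, Nat.cast_zero] at h4
  have h5 : padicValRat q (xx (m * k)) = padicValRat q (xx m) := by
    rw [h4]; ring
  refine (mem_VD hm).2 ⟨h1, hdv', ?_⟩
  unfold wt at h3 ⊢
  rw [h5] at h3
  exact h3

lemma vd_ord {q n : ℕ} (hn : n ≠ 0) (h : q ∈ VD n) : ∃ M, Ord q M ∧ M ∣ n := by
  obtain ⟨h1, h2, -⟩ := (mem_VD hn).1 h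
  have h3 : Dv q n := (dv_xx hn).2 h2
  obtain ⟨M, hM⟩ := exists_Ord h1.1 (k := (n : ℤ)) (by exact_mod_cast hn) h3
  exact ⟨M, hM, by exact_mod_cast (hM.2 _).1 h3⟩

/-- visible primes of exact order a power of three -/
theorem exists_three (hL : Law) {j : ℕ} (hj : 1 ≤ j) :
    ∃ q, q ∈ VD (3 ^ (2 * j)) ∧ Ord q (3 ^ (2 * j)) := by
  obtain ⟨i, rfl⟩ : ∃ i, j = i + 1 := ⟨j - 1, by omega⟩
  have e : 3 ^ (2 * (i + 1)) = 3 ^ (2 * i + 1) * 3 := by ring
  by_contra hcon
  push Not at hcon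
  have hodd : ∀ f : ℕ, 3 ^ f % 2 = 1 := fun f => by
    rw [Nat.pow_mod]; norm_num
  have hpos : ∀ f : ℕ, 3 ^ f ≠ 0 := fun f => pow_ne_zero _ (by norm_num)
  have hset : VD (3 ^ (2 * (i + 1))) = VD (3 ^ (2 * i + 1)) := by
    ext q
    constructor
    · intro h
      have hq3 := vd_ne_three (hodd _) h
      obtain ⟨M, hM, hMd⟩ := vd_ord (hpos _) h
      have hne : M ≠ 3 ^ (2 * (i + 1)) := by
        rintro rfl
        exact hcon q h hM
      obtain ⟨t, ht, rfl⟩ := (Nat.dvd_prime_pow Nat.prime_three).1 hMd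
      have ht' : t ≤ 2 * i + 1 := by
        by_contra hc
        have : t = 2 * (i + 1) := by omega
        rw [this] at hne
        exact hne rfl
      have hdv : Dv q ((3 ^ (2 * i + 1) : ℕ) : ℤ) :=
        (hM.2 _).2 (by exact_mod_cast pow_dvd_pow 3 ht')
      have hq := ((mem_VD (hpos _)).1 h).1.1
      rw [e] at h
      refine vd_of_mul (hpos _) (by norm_num) ?_ hdv h
      intro h3
      exact hq3 ((Nat.prime_dvd_prime_iff_eq hq Nat.prime_three).1 h3)
    · intro h
      have hq3 := vd_ne_three (hodd _) h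
      have hq := ((mem_VD (hpos _)).1 h).1.1
      rw [e]
      refine vd_mul (hpos _) (by norm_num) ?_ h
      intro h3
      exact hq3 ((Nat.prime_dvd_prime_iff_eq hq Nat.prime_three).1 h3)
  have h1 := vd_parity hL (hodd (2 * (i + 1)))
  have h2 := vd_parity hL (hodd (2 * i + 1))
  rw [hset] at h1
  have h3 := h1.symm.trans h2
  have e9 : 3 ^ (2 * (i + 1)) = 9 * 9 ^ i := by rw [pow_mul]; ring
  have e3 : 3 ^ (2 * i + 1) = 3 * 9 ^ i := by rw [pow_succ, pow_mul]; ring
  have h9 : 9 ^ i % 16 = 1 ∨ 9 ^ i % 16 = 9 := by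
    induction i with
    | zero => left; norm_num
    | succ i ih =>
      have ih' : 9 ^ i % 16 = 1 ∨ 9 ^ i % 16 = 9 := by
        clear * -
        induction i with
        | zero => left; norm_num
        | succ i ih => rw [pow_succ]; omega
      rw [pow_succ]
      omega
  rw [e9, e3] at h3
  omega

/-- visible primes of exact order a product of two primes -/
theorem exists_pair (hL : Law) {r₁ r₂ : ℕ} (h1 : r₁.Prime) (h2 : r₂.Prime) (hne : r₁ ≠ r₂)
    (h18 : r₁ % 8 = 3 ∨ r₁ % 8 = 5) (h28 : r₂ % 8 = 3 ∨ r₂ % 8 = 5) (hb1 : ¬ Ord r₁ r₂)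
    (hb2 : ¬ Ord r₂ r₁) : ∃ q, q ∈ VD (r₁ * r₂) ∧ Ord q (r₁ * r₂) := by
  by_contra hcon
  push Not at hcon
  have o1 : r₁ % 2 = 1 := by omega
  have o2 : r₂ % 2 = 1 := by omega
  have o12 : (r₁ * r₂) % 2 = 1 := by rw [Nat.mul_mod, o1, o2]
  have z1 := h1.ne_zero
  have z2 := h2.ne_zero
  have hM1 : ∀ q M, Ord q M → M ≠ 1 := by
    rintro q M hM rfl
    exact not_dv_one q ((hM.2 1).2 (by norm_num))
  have hset : VD (r₁ * r₂) = VD r₁ ∪ VD r₂ := by
    ext q
    rw [Finset.mem_union]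
    constructor
    · intro h
      have hq := ((mem_VD (mul_ne_zero z1 z2)).1 h).1.1
      obtain ⟨M, hM, hMd⟩ := vd_ord (mul_ne_zero z1 z2) h
      have hne12 : M ≠ r₁ * r₂ := by
        rintro rfl
        exact hcon q h hM
      have hM1' := hM1 q M hM
      -- `M` is `r₁` or `r₂`
      have hcase : M = r₁ ∨ M = r₂ := by
        rcases (Nat.dvd_mul.1 hMd) with ⟨a, b, ha, hb, hab⟩
        rcases (Nat.dvd_prime h1).1 ha with rfl | rfl <;>
          rcases (Nat.dvd_prime h2).1 hb with rfl | rfl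
        · exact absurd hab.symm (by simpa using hM1')
        · right; rw [← hab, one_mul]
        · left; rw [← hab, mul_one]
        · exact absurd hab.symm hne12
      rcases hcase with h3 | h3
      · rw [h3] at hM
        left
        refine vd_of_mul z1 z2 ?_ ((hM.2 _).2 dvd_rfl) h
        intro h4
        have h5 := (Nat.prime_dvd_prime_iff_eq hq h2).1 h4
        rw [h5] at hM
        exact hb2 hM
      · rw [h3] at hM
        right
        rw [mul_comm] at h
        refine vd_of_mul z2 z1 ?_ ((hM.2 _).2 dvd_rfl) h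
        intro h4
        have h5 := (Nat.prime_dvd_prime_iff_eq hq h1).1 h4
        rw [h5] at hM
        exact hb1 hM
    · rintro (h | h)
      · have hq := ((mem_VD z1).1 h).1.1
        obtain ⟨M, hM, hMd⟩ := vd_ord z1 h
        have hM' : M = r₁ := ((Nat.dvd_prime h1).1 hMd).resolve_left (hM1 q M hM)
        rw [hM'] at hM
        refine vd_mul z1 z2 ?_ h
        intro h4
        have h5 := (Nat.prime_dvd_prime_iff_eq hq h2).1 h4
        rw [h5] at hM
        exact hb2 hM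
      · have hq := ((mem_VD z2).1 h).1.1
        obtain ⟨M, hM, hMd⟩ := vd_ord z2 h
        have hM' : M = r₂ := ((Nat.dvd_prime h2).1 hMd).resolve_left (hM1 q M hM)
        rw [hM'] at hM
        rw [mul_comm]
        refine vd_mul z2 z1 ?_ h
        intro h4
        have h5 := (Nat.prime_dvd_prime_iff_eq hq h1).1 h4
        rw [h5] at hM
        exact hb1 hM
  have hdis : Disjoint (VD r₁) (VD r₂) := by
    rw [Finset.disjoint_left]
    intro q ha hb
    obtain ⟨M, hM, hMd⟩ := vd_ord z1 ha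
    obtain ⟨M', hM', hMd'⟩ := vd_ord z2 hb
    have e1 : M = r₁ := ((Nat.dvd_prime h1).1 hMd).resolve_left (hM1 q M hM)
    have e2 : M' = r₂ := ((Nat.dvd_prime h2).1 hMd').resolve_left (hM1 q M' hM')
    have := hM.unique hM'
    exact hne (by rw [← e1, ← e2, this])
  have hcard : (VD (r₁ * r₂)).card = (VD r₁).card + (VD r₂).card := by
    rw [hset, Finset.card_union_of_disjoint hdis]
  have p12 := vd_parity hL o12
  have p1 := vd_parity hL o1
  have p2 := vd_parity hL o2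
  rw [hcard] at p12
  have m1 : r₁ % 16 = 3 ∨ r₁ % 16 = 5 ∨ r₁ % 16 = 11 ∨ r₁ % 16 = 13 := by omega
  have m2 : r₂ % 16 = 3 ∨ r₂ % 16 = 5 ∨ r₂ % 16 = 11 ∨ r₂ % 16 = 13 := by omega
  have m12 : (r₁ * r₂) % 16 = ((r₁ % 16) * (r₂ % 16)) % 16 := Nat.mul_mod _ _ _
  rw [Nat.odd_iff] at p12 p1 p2
  rcases m1 with a | a | a | a <;> rcases m2 with b | b | b | b <;> rw [a, b] at m12 <;>
    norm_num at m12 <;> omega

end Vale.Agent.P027.Q
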