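import Vale.Agent.P027.Q.Grow

/-! Triple exponential growth of the indices. -/

set_option linter.all false

namespace Vale.Agent.P027.Q

open Vale.Agent.P027

/-- the inert prime divisors of `n`, different from three -/
def cl (n : ℕ) : Finset ℕ :=
  n.primeFactors.filter (fun q => (q % 8 = 3 ∨ q % 8 = 5) ∧ q ≠ 3)

lemma mem_cl {q n : ℕ} (hn : n ≠ 0) : q ∈ cl n ↔ Inert q ∧ q ≠ 3 ∧ q ∣ n := by
  unfold cl
  rw [Finset.mem_filter, Nat.mem_primeFactors]
  constructor
  · rintro ⟨⟨h1, h2, -⟩, h3, h4⟩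
    exact ⟨⟨h1, h3⟩, h4, h2⟩
  · rintro ⟨⟨h1, h2⟩, h3, h4⟩
    exact ⟨⟨h1, h4, hn⟩, h2, h3⟩

lemma nxt_ne {n : ℕ} (hn : n ≠ 0) : nxt n ≠ 0 := by
  unfold nxt
  refine mul_ne_zero hn (Finset.prod_ne_zero_iff.2 (fun q hq => ?_))
  exact ((mem_Vs hn).1 hq).1.1.ne_zero

lemma mem_cl_nxt {q m n : ℕ} (hn : Odd n) (hmn : m ∣ n) (h : q ∈ VD m) : q ∈ cl (nxt n) := by
  have hn0 : n ≠ 0 := by rintro rfl; simp at hn
  obtain ⟨k, rfl⟩ := hmn
  have hm0 : m ≠ 0 := left_ne_zero_of_mul hn0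
  obtain ⟨hmo, hko⟩ := Nat.odd_mul.1 hn
  obtain ⟨h1, h2, h3⟩ := (mem_VD hm0).1 h
  have hq3 := vd_ne_three (Nat.odd_iff.1 hmo) h
  rw [mem_cl (nxt_ne hn0)]
  refine ⟨h1, hq3, ?_⟩
  by_cases hd : q ∣ m * k
  · exact hd.trans (dvd_nxt _)
  · have hk : padicValNat q k = 0 := padicValNat.eq_zero_of_not_dvd (fun h => hd (h.mul_left _))
    have hw : wt q m ≠ 0 := by
      intro h0; rw [h0] at h3; simp at h3
    have hw1 := wt_mul h1.1 (inert_ne_seven h1) hm0 hko hw
    rw [hk, add_zero] at hw1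
    have hmem : q ∈ Vs (m * k) := (mem_Vs hn0).2 ⟨h1, hq3, by rw [hw1]; exact h3⟩
    unfold nxt
    exact (Finset.dvd_prod_of_mem _ hmem).mul_left _

theorem cl_growth (hL : Law) {n : ℕ} (hn : Odd n) :
    (cl n).card ^ 2 ≤ 2 * (cl (nxt n)).card + 3 * (cl n).card := by
  classical
  have hn0 : n ≠ 0 := by rintro rfl; simp at hn
  set S := cl n with hS
  set G := S.offDiag.filter (fun p => ¬ Ord p.1 p.2 ∧ ¬ Ord p.2 p.1) with hG
  set A := (S ×ˢ S).filter (fun p => Ord p.1 p.2) with hA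
  set B := (S ×ˢ S).filter (fun p => Ord p.2 p.1) with hB
  have hAc : A.card ≤ S.card := by
    refine Finset.card_le_card_of_injOn Prod.fst ?_ ?_
    · intro p hp
      rw [Finset.mem_coe, hA, Finset.mem_filter, Finset.mem_product] at hp
      exact hp.1.1
    · intro p hp p' hp' h
      rw [Finset.mem_coe, hA, Finset.mem_filter] at hp hp'
      have h1 := hp.2
      have h2 := hp'.2
      rw [h] at h1
      exact Prod.ext h (h1.unique h2)
  have hBc : B.card ≤ S.card := by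
    refine Finset.card_le_card_of_injOn Prod.snd ?_ ?_
    · intro p hp
      rw [Finset.mem_coe, hB, Finset.mem_filter, Finset.mem_product] at hp
      exact hp.1.2
    · intro p hp p' hp' h
      rw [Finset.mem_coe, hB, Finset.mem_filter] at hp hp'
      have h1 := hp.2
      have h2 := hp'.2
      rw [h] at h1
      exact Prod.ext (h1.unique h2) h
  have hoff : S.offDiag ⊆ G ∪ (A ∪ B) := by
    intro p hp
    rw [Finset.mem_union, Finset.mem_union, hG, hA, hB, Finset.mem_filter, Finset.mem_filter,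
      Finset.mem_filter, Finset.mem_product]
    have hp' := Finset.mem_offDiag.1 hp
    by_cases h1 : Ord p.1 p.2
    · exact Or.inr (Or.inl ⟨⟨hp'.1, hp'.2.1⟩, h1⟩)
    · by_cases h2 : Ord p.2 p.1
      · exact Or.inr (Or.inr ⟨⟨hp'.1, hp'.2.1⟩, h2⟩)
      · exact Or.inl ⟨hp, h1, h2⟩
  have hGc : S.card * S.card - S.card ≤ G.card + (S.card + S.card) := by
    rw [← Finset.offDiag_card]
    refine (Finset.card_le_card hoff).trans ((Finset.card_union_le _ _).trans ?_)
    have := Finset.card_union_le A B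
    omega
  -- the primes attached to the pairs
  have hex : ∀ p : ℕ × ℕ, ∃ q : ℕ, p ∈ G → (q ∈ VD (p.1 * p.2) ∧ Ord q (p.1 * p.2)) := by
    intro p
    by_cases hp : p ∈ G
    · rw [hG, Finset.mem_filter, Finset.mem_offDiag, hS, mem_cl hn0, mem_cl hn0] at hp
      obtain ⟨⟨⟨i1, -, -⟩, ⟨i2, -, -⟩, hne⟩, hb1, hb2⟩ := hp
      obtain ⟨q, hq⟩ := exists_pair hL i1.1 i2.1 hne i1.2 i2.2 hb1 hb2
      exact ⟨q, fun _ => hq⟩
    · exact ⟨0, fun h => absurd h hp⟩
  choose f hf using hex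
  have himg : G.image f ⊆ cl (nxt n) := by
    intro q hq
    rw [Finset.mem_image] at hq
    obtain ⟨p, hp, rfl⟩ := hq
    refine mem_cl_nxt hn ?_ (hf p hp).1
    rw [hG, Finset.mem_filter, Finset.mem_offDiag, hS, mem_cl hn0, mem_cl hn0] at hp
    obtain ⟨⟨⟨i1, -, d1⟩, ⟨i2, -, d2⟩, hne⟩, -, -⟩ := hp
    exact Nat.Coprime.mul_dvd_of_dvd_of_dvd ((Nat.coprime_primes i1.1 i2.1).2 hne) d1 d2
  have hfib : G.card ≤ 2 * (G.image f).card := by
    refine Finset.card_le_mul_card_image G 2 ?_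
    intro q hq
    rw [Finset.mem_image] at hq
    obtain ⟨⟨a, b⟩, hp, rfl⟩ := hq
    have hsub : (G.filter (fun x => f x = f (a, b))) ⊆ {(a, b), (b, a)} := by
      rintro ⟨a', b'⟩ hx
      rw [Finset.mem_filter] at hx
      have h1 := (hf _ hx.1).2
      have h2 := (hf _ hp).2
      rw [hx.2] at h1
      have h3 : a' * b' = a * b := h1.unique h2
      rw [hG, Finset.mem_filter, Finset.mem_offDiag, hS, mem_cl hn0, mem_cl hn0] at hp
      have hx1 := hx.1
      rw [hG, Finset.mem_filter, Finset.mem_offDiag, hS, mem_cl hn0, mem_cl hn0] at hx1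
      obtain ⟨⟨⟨i1, -, d1⟩, ⟨i2, -, d2⟩, hne⟩, -, -⟩ := hp
      obtain ⟨⟨⟨j1, -, e1⟩, ⟨j2, -, e2⟩, hne'⟩, -, -⟩ := hx1
      simp only at i1 i2 j1 j2 hne hne'
      have h4 : a' ∣ a * b := by rw [← h3]; exact dvd_mul_right _ _
      rw [Finset.mem_insert, Finset.mem_singleton]
      rcases (j1.1.dvd_mul).1 h4 with h5 | h5
      · have h6 := (Nat.prime_dvd_prime_iff_eq j1.1 i1.1).1 h5
        left
        rw [h6] at h3
        have h7 := Nat.eq_of_mul_eq_mul_left i1.1.pos h3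
        rw [h6, h7]
      · have h6 := (Nat.prime_dvd_prime_iff_eq j1.1 i2.1).1 h5
        right
        rw [h6, mul_comm a b] at h3
        have h7 := Nat.eq_of_mul_eq_mul_left i2.1.pos h3
        rw [h6, h7]
    exact (Finset.card_le_card hsub).trans Finset.card_le_two
  have h1 := Finset.card_le_card himg
  rw [sq]
  omega

/-- the indices -/
noncomputable def Om (a N : ℕ) : ℕ → ℕ
  | 0 => 7 ^ (a + 1) * 3 ^ N
  | i + 1 => nxt (Om a N i)

lemma om_odd (a N i : ℕ) : Odd (Om a N i) := by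
  induction i with
  | zero => exact (Odd.pow (by decide)).mul (Odd.pow (by decide))
  | succ i ih => exact nxt_odd ih

lemma om_ne (a N i : ℕ) : Om a N i ≠ 0 := by
  intro h
  have := om_odd a N i
  rw [h] at this
  simp at this

lemma om_dvd (a N : ℕ) {i j : ℕ} (h : i ≤ j) : Om a N i ∣ Om a N j := by
  induction h with
  | refl => exact dvd_rfl
  | step _ ih => exact ih.trans (dvd_nxt _)

lemma cl_start (hL : Law) (a N : ℕ) : N / 2 ≤ (cl (Om a N 1)).card := by
  classical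
  have hex : ∀ j : ℕ, ∃ q, q ∈ VD (3 ^ (2 * (j + 1))) ∧ Ord q (3 ^ (2 * (j + 1))) :=
    fun j => exists_three hL (by omega)
  choose f hf using hex
  have h1 : (Finset.range (N / 2)).card ≤ (cl (Om a N 1)).card := by
    refine Finset.card_le_card_of_injOn f ?_ ?_
    · intro j hj
      rw [Finset.coe_range, Set.mem_Iio] at hj
      rw [Finset.mem_coe]
      refine mem_cl_nxt (om_odd a N 0) ?_ (hf j).1
      refine dvd_trans (pow_dvd_pow 3 (by omega)) (dvd_mul_left (3 ^ N) (7 ^ (a + 1)))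
    · intro i _ j _ hij
      have h1 := (hf i).2
      have h2 := (hf j).2
      rw [hij] at h1
      have h3 := Nat.pow_right_injective (le_refl 2 |>.trans (by norm_num : 2 ≤ 3)) (h1.unique h2)
      omega
  rwa [Finset.card_range] at h1

theorem cl_om (hL : Law) (a N : ℕ) (hN : 16 ≤ N) (i : ℕ) :
    4 * 2 ^ (2 ^ i) ≤ (cl (Om a N (i + 1))).card := by
  induction i with
  | zero =>
    have := cl_start hL a N
    norm_num
    omega
  | succ i ih =>
    have h1 := cl_growth hL (om_odd a N (i + 1))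
    have e : Om a N (i + 1 + 1) = nxt (Om a N (i + 1)) := rfl
    rw [e]
    set t := 2 ^ (2 ^ i) with ht
    have ht2 : 2 ≤ t := by
      rw [ht]
      calc 2 = 2 ^ 1 := by norm_num
        _ ≤ 2 ^ (2 ^ i) := Nat.pow_le_pow_right (by norm_num) Nat.one_le_two_pow
    have et : 2 ^ (2 ^ (i + 1)) = t * t := by
      rw [ht, ← pow_add]; congr 1; ring
    rw [et]
    set k := (cl (Om a N (i + 1))).card
    nlinarith

theorem om_growth (hL : Law) (a N : ℕ) (hN : 16 ≤ N) (i : ℕ) :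
    2 ^ (2 ^ (2 ^ i)) ≤ Om a N (i + 1) := by
  have h1 := cl_om hL a N hN i
  have hO := om_ne a N (i + 1)
  have h2 : 2 ^ (cl (Om a N (i + 1))).card ≤ ∏ q ∈ cl (Om a N (i + 1)), q := by
    refine Finset.pow_card_le_prod _ _ _ (fun q hq => ?_)
    exact ((mem_cl hO).1 hq).1.1.two_le
  have h3 : ∏ q ∈ cl (Om a N (i + 1)), q ∣ Om a N (i + 1) := by
    refine Finset.prod_primes_dvd _ (fun q hq => ((mem_cl hO).1 hq).1.1.prime) (fun q hq => ?_)
    exact ((mem_cl hO).1 hq).2.2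
  have h4 := Nat.le_of_dvd (Nat.pos_of_ne_zero hO) h3
  refine le_trans (Nat.pow_le_pow_right (by norm_num) ?_) (h2.trans h4)
  omega

end Vale.Agent.P027.Q
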