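import Vale.Agent.P027.Q.Ker

/-! Multiplication by `n` on points reducing to the origin. -/

set_option linter.all false

namespace Vale.Agent.P027.Q

open Vale.Agent.P027

section

variable (p : ℕ) [hp : Fact p.Prime]

lemma norm_quot {w : ℚ} (hw : padicNorm p w < 1) :
    1 + 7 * w ≠ 0 ∧ padicNorm p ((1 - 7 * w) / (1 + 7 * w) ^ 2 - 1) ≤ padicNorm p w ∧
      padicNorm p (1 / (1 + 7 * w) ^ 2 - 1) ≤ padicNorm p w := by
  have n7 : padicNorm p 7 ≤ 1 := by exact_mod_cast n_le_one p 7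
  have n21 : padicNorm p (-21) ≤ 1 := by exact_mod_cast n_le_one p (-21)
  have n14 : padicNorm p (-14) ≤ 1 := by exact_mod_cast n_le_one p (-14)
  have n49 : padicNorm p (-49) ≤ 1 := by exact_mod_cast n_le_one p (-49)
  have hw0 : 0 ≤ padicNorm p w := padicNorm.nonneg _
  have h1 : padicNorm p (7 * w) < 1 := by
    rw [padicNorm.mul]; nlinarith only [hw, n7, hw0]
  have h2 : padicNorm p (1 + 7 * w) = 1 := by
    rw [norm_add_left p (by rw [padicNorm.one]; exact h1), padicNorm.one]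
  have h3 : 1 + 7 * w ≠ 0 := by
    intro h; rw [h, padicNorm.zero] at h2; exact zero_ne_one h2
  refine ⟨h3, ?_, ?_⟩
  · have e : (1 - 7 * w) / (1 + 7 * w) ^ 2 - 1 = w * (-21 + -49 * w) / (1 + 7 * w) ^ 2 := by
      field_simp; ring
    rw [e, padicNorm.div, sq, padicNorm.mul, padicNorm.mul, h2]
    have h4 : padicNorm p (-21 + -49 * w) ≤ 1 := by
      refine (padicNorm.nonarchimedean).trans (max_le n21 ?_)
      rw [padicNorm.mul]
      nlinarith only [n49, hw, padicNorm.nonneg (p := p) (-49)]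
    rw [mul_one, div_one]
    nlinarith only [hw0, h4]
  · have e : 1 / (1 + 7 * w) ^ 2 - 1 = w * (-14 + -49 * w) / (1 + 7 * w) ^ 2 := by
      field_simp; ring
    rw [e, padicNorm.div, sq, padicNorm.mul, padicNorm.mul, h2]
    have h4 : padicNorm p (-14 + -49 * w) ≤ 1 := by
      refine (padicNorm.nonarchimedean).trans (max_le n14 ?_)
      rw [padicNorm.mul]
      nlinarith only [n49, hw, padicNorm.nonneg (p := p) (-49)]
    rw [mul_one, div_one]
    nlinarith only [hw0, h4]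

lemma rec_algebra {a b s d : ℚ} (ha : a ≠ 0) (hb : b ≠ 0) (hs : s ≠ 0) (hd : d ≠ 0)
    (hab : a - b ≠ 0) (h1 : (s + d) * (a - b) ^ 2 = 2 * ((a * b - 7) * (a + b) + 20 * (a * b)))
    (h2 : s * d * (a - b) ^ 2 = (a * b + 7) ^ 2) (hw : 1 + 7 * (a⁻¹ * b⁻¹) ≠ 0) :
    s⁻¹ + d⁻¹ - 2 * a⁻¹ - 2 * b⁻¹ - 40 * (a⁻¹ * b⁻¹) =
      2 * (a⁻¹ + b⁻¹) * ((1 - 7 * (a⁻¹ * b⁻¹)) / (1 + 7 * (a⁻¹ * b⁻¹)) ^ 2 - 1) +
      40 * (a⁻¹ * b⁻¹) * (1 / (1 + 7 * (a⁻¹ * b⁻¹)) ^ 2 - 1) := by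
  have hab2 : (a * b + 7) ≠ 0 := by
    intro h
    rw [h] at h2
    have : s * d * (a - b) ^ 2 ≠ 0 := by positivity
    exact this (by rw [h2]; norm_num)
  have e1 : s⁻¹ + d⁻¹ = 2 * ((a * b - 7) * (a + b) + 20 * (a * b)) / (a * b + 7) ^ 2 := by
    rw [← h1, ← h2]
    field_simp
    ring
  have e2 : 1 + 7 * (a⁻¹ * b⁻¹) = (a * b + 7) / (a * b) := by
    field_simp
  rw [e1, e2]
  field_simp
  ring

/-- the bound for the second difference -/
lemma second_diff {a b s d B : ℚ} (hB : 1 < B) (hb : padicNorm p b = B) (ha : B ≤ padicNorm p a)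
    (hs : s ≠ 0) (hd : d ≠ 0) (hab : a - b ≠ 0)
    (h1 : (s + d) * (a - b) ^ 2 = 2 * ((a * b - 7) * (a + b) + 20 * (a * b)))
    (h2 : s * d * (a - b) ^ 2 = (a * b + 7) ^ 2) :
    padicNorm p (s⁻¹ + d⁻¹ - 2 * a⁻¹ - 2 * b⁻¹ - 40 * (a⁻¹ * b⁻¹)) * B ^ 3 ≤ 1 := by
  have hB0 : 0 < B := by linarith only [hB]
  have hb0 : b ≠ 0 := ne_zero_of_norm hB0 hb.ge
  have ha0 : a ≠ 0 := ne_zero_of_norm hB0 ha
  have n2 : padicNorm p 2 ≤ 1 := by exact_mod_cast n_le_one p 2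
  have n40 : padicNorm p 40 ≤ 1 := by exact_mod_cast n_le_one p 40
  have na : padicNorm p a⁻¹ ≤ B⁻¹ := by
    rw [← one_div, padicNorm.div, padicNorm.one, one_div]
    exact inv_anti₀ hB0 ha
  have nb : padicNorm p b⁻¹ = B⁻¹ := by
    rw [← one_div, padicNorm.div, padicNorm.one, one_div, hb]
  have hBi : B⁻¹ < 1 := inv_lt_one_of_one_lt₀ hB
  have hBi0 : 0 < B⁻¹ := by positivity
  have na0 : 0 ≤ padicNorm p a⁻¹ := padicNorm.nonneg _
  have nw : padicNorm p (a⁻¹ * b⁻¹) ≤ B⁻¹ ^ 2 := by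
    rw [padicNorm.mul, nb, sq]
    exact mul_le_mul_of_nonneg_right na hBi0.le
  have hw1 : padicNorm p (a⁻¹ * b⁻¹) < 1 := by nlinarith only [hBi, hBi0, nw]
  obtain ⟨hw, hq, hq'⟩ := norm_quot p hw1
  rw [rec_algebra ha0 hb0 hs hd hab h1 h2 hw]
  have nab : padicNorm p (a⁻¹ + b⁻¹) ≤ B⁻¹ :=
    (padicNorm.nonarchimedean).trans (max_le na nb.le)
  have h20 : 0 ≤ padicNorm p 2 := padicNorm.nonneg _
  have h40 : 0 ≤ padicNorm p 40 := padicNorm.nonneg _
  have hab0 : 0 ≤ padicNorm p (a⁻¹ + b⁻¹) := padicNorm.nonneg _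
  have hB3 : (0 : ℚ) < B ^ 3 := by positivity
  rw [← le_div_iff₀ hB3]
  have e3 : 1 / B ^ 3 = (1 * B⁻¹) * B⁻¹ ^ 2 := by field_simp
  rw [e3]
  refine (padicNorm.nonarchimedean).trans (max_le ?_ ?_)
  · rw [padicNorm.mul, padicNorm.mul]
    apply mul_le_mul _ (hq.trans nw) (padicNorm.nonneg _) (by positivity)
    apply mul_le_mul n2 nab hab0 (by norm_num)
  · rw [padicNorm.mul, padicNorm.mul]
    calc padicNorm p 40 * padicNorm p (a⁻¹ * b⁻¹) * padicNorm p (1 / (1 + 7 * (a⁻¹ * b⁻¹)) ^ 2 - 1)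
        ≤ (1 * B⁻¹ ^ 2) * B⁻¹ ^ 2 := by
          apply mul_le_mul _ (hq'.trans nw) (padicNorm.nonneg _) (by positivity)
          apply mul_le_mul n40 nw (padicNorm.nonneg _) (by norm_num)
      _ ≤ (1 * B⁻¹) * B⁻¹ ^ 2 := by
          apply mul_le_mul_of_nonneg_right _ (by positivity)
          nlinarith only [hBi, hBi0]

theorem sq_congr {V : E.Point} {x : ℚ} (hV : HasX V x) (h9 : 1 < padicNorm p x)
    (hne : ∀ m : ℕ, 1 ≤ m → m • V ≠ 0) {n : ℕ}
    (hn : 1 ≤ n) : ∃ x', HasX (n • V) x' ∧ padicNorm p x ≤ padicNorm p x' ∧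
      padicNorm p (x / x' - (n : ℚ) ^ 2 - 40 * SS n * x⁻¹) * padicNorm p x ^ 2 ≤ 1 := by
  set B := padicNorm p x with hBdef
  have hB1 : 1 < B := h9
  have hB0 : 0 < B := by linarith only [h9]
  have hx0 : x ≠ 0 := ne_zero_of_norm hB0 le_rfl
  have hmem : V ∈ GG p B hB1 := by rw [mem_GG_of_hasX p hB1 hV]
  have hex : ∀ m : ℕ, ∃ z : ℚ, (m = 0 → z = 0) ∧ (1 ≤ m → HasX (m • V) z) := by
    intro m
    rcases Nat.eq_zero_or_pos m with h | h
    · exact ⟨0, fun _ => rfl, fun h1 => by omega⟩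
    · obtain ⟨z, hz⟩ := exists_hasX (hne m h)
      exact ⟨z, fun h1 => by omega, fun _ => hz⟩
  choose X hX0 hX using hex
  have hX1 : X 1 = x := by
    have h1 := hX 1 le_rfl
    rw [one_nsmul] at h1
    exact h1.unique hV
  have hXB : ∀ m : ℕ, 1 ≤ m → B ≤ padicNorm p (X m) := by
    intro m hm
    have h1 : m • V ∈ GG p B hB1 := AddSubgroup.nsmul_mem _ hmem m
    exact (mem_GG_of_hasX p hB1 (hX m hm)).1 h1
  have hXne : ∀ m : ℕ, 1 ≤ m → X m ≠ 0 := fun m hm => ne_zero_of_norm hB0 (hXB m hm)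
  have hB3 : (0 : ℚ) < B ^ 3 := by positivity
  have nb : padicNorm p x⁻¹ = B⁻¹ := by
    rw [← one_div, padicNorm.div, padicNorm.one, one_div]
  have hBi : B⁻¹ < 1 := inv_lt_one_of_one_lt₀ hB1
  have hBi0 : 0 < B⁻¹ := by positivity
  have n2 : padicNorm p 2 ≤ 1 := by exact_mod_cast n_le_one p 2
  have n40 : padicNorm p 40 ≤ 1 := by exact_mod_cast n_le_one p 40
  have h20 : 0 ≤ padicNorm p 2 := padicNorm.nonneg _
  have h40 : 0 ≤ padicNorm p 40 := padicNorm.nonneg _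
  -- second differences
  have hrec : ∀ m : ℕ, padicNorm p ((X (m + 2))⁻¹ + (X m)⁻¹ - 2 * (X (m + 1))⁻¹ - 2 * x⁻¹ -
      40 * ((X (m + 1))⁻¹ * x⁻¹)) * B ^ 3 ≤ 1 := by
    intro m
    rcases Nat.eq_zero_or_pos m with h | h
    · subst h
      have e2 : X 2 = (x ^ 2 + 7) ^ 2 / (4 * (x ^ 3 + 10 * x ^ 2 - 7 * x)) := by
        have h1 : HasX (V + V) (X 2) := by
          have h3 := hX 2 (by norm_num)
          rw [two_nsmul] at h3
          exact h3
        exact h1.unique (hasX_two_smul hV hx0)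
      have hx3 := cubic_ne hx0
      have nw : padicNorm p (x⁻¹ * x⁻¹) = B⁻¹ ^ 2 := by
        rw [padicNorm.mul, nb, sq]
      obtain ⟨hw, hq, hq'⟩ := norm_quot p (w := x⁻¹ * x⁻¹) (by rw [nw]; nlinarith only [hBi, hBi0])
      have hx2 : x ^ 2 + 7 ≠ 0 := by (clear * - hx0; positivity)
      have e3 : (X 2)⁻¹ + (X 0)⁻¹ - 2 * (X 1)⁻¹ - 2 * x⁻¹ - 40 * ((X 1)⁻¹ * x⁻¹) =
          2 * (2 * x⁻¹) * ((1 - 7 * (x⁻¹ * x⁻¹)) / (1 + 7 * (x⁻¹ * x⁻¹)) ^ 2 - 1) +
          40 * (x⁻¹ * x⁻¹) * (1 / (1 + 7 * (x⁻¹ * x⁻¹)) ^ 2 - 1) := by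
        rw [hX0 0 rfl, hX1, e2]
        have f1 : 1 - 7 * (x⁻¹ * x⁻¹) = (x ^ 2 - 7) / x ^ 2 := by (clear * - hx0; field_simp)
        have f2 : 1 + 7 * (x⁻¹ * x⁻¹) = (x ^ 2 + 7) / x ^ 2 := by (clear * - hx0; field_simp)
        rw [f1, f2]
        field_simp
        ring
      simp only [Nat.zero_add]
      rw [e3, ← le_div_iff₀ hB3]
      have e4 : 1 / B ^ 3 = (1 * (1 * B⁻¹)) * B⁻¹ ^ 2 := by field_simp
      rw [e4]
      rw [nw] at hq hq'
      refine (padicNorm.nonarchimedean).trans (max_le ?_ ?_)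
      · rw [padicNorm.mul, padicNorm.mul, padicNorm.mul, nb]
        apply mul_le_mul _ hq (padicNorm.nonneg _) (by positivity)
        apply mul_le_mul n2 _ (by (clear * - h20 hBi0; positivity)) (by norm_num)
        apply mul_le_mul_of_nonneg_right n2 hBi0.le
      · rw [padicNorm.mul, padicNorm.mul, nw]
        calc padicNorm p 40 * B⁻¹ ^ 2 * padicNorm p (1 / (1 + 7 * (x⁻¹ * x⁻¹)) ^ 2 - 1)
            ≤ (1 * B⁻¹ ^ 2) * B⁻¹ ^ 2 := by
              apply mul_le_mul _ hq' (padicNorm.nonneg _) (by positivity)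
              apply mul_le_mul_of_nonneg_right n40 (by positivity)
          _ ≤ _ := by
              apply mul_le_mul_of_nonneg_right _ (by positivity)
              nlinarith only [hBi, hBi0]
    · have hm1 := hX (m + 1) (by omega)
      have hab : X (m + 1) ≠ x := by
        intro h1
        rw [h1] at hm1
        rcases hm1.eq_or_neg hV with h2 | h2
        · apply hne m h
          rw [add_nsmul, one_nsmul] at h2
          exact add_eq_right.1 h2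
        · apply hne (m + 2) (by omega)
          have : (m + 2) • V = (m + 1) • V + V := by rw [← succ_nsmul]
          rw [this, h2, neg_add_cancel]
      obtain ⟨s, d, hs, hd, h1, h2⟩ := hasX_add_sub hm1 hV hab
      have es : s = X (m + 2) := by
        have : (m + 1) • V + V = (m + 2) • V := by rw [← succ_nsmul]
        rw [this] at hs
        exact hs.unique (hX (m + 2) (by omega))
      have ed : d = X m := by
        have : (m + 1) • V - V = m • V := by rw [succ_nsmul, add_sub_cancel_right]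
        rw [this] at hd
        exact hd.unique (hX m h)
      subst es ed
      exact second_diff p hB1 rfl (hXB (m + 1) (by omega)) (hXne _ (by omega)) (hXne _ h)
        (sub_ne_zero.2 hab) h1 h2
  -- the estimate
  have hest : ∀ m : ℕ, padicNorm p ((X m)⁻¹ - (m : ℚ) ^ 2 * x⁻¹ - 40 * SS m * x⁻¹ ^ 2) * B ^ 3 ≤ 1 ∧
      padicNorm p ((X (m + 1))⁻¹ - ((m + 1 : ℕ) : ℚ) ^ 2 * x⁻¹ - 40 * SS (m + 1) * x⁻¹ ^ 2) * B ^ 3
        ≤ 1 := by
    intro m
    induction m with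
    | zero =>
      constructor
      · rw [hX0 0 rfl]
        simp [SS]
      · rw [Nat.zero_add, hX1]
        simp [SS]
    | succ m ih =>
      refine ⟨ih.2, ?_⟩
      obtain ⟨i1, i2⟩ := ih
      have hr := hrec m
      rw [← le_div_iff₀ hB3] at i1 i2 hr ⊢
      have e : (X (m + 1 + 1))⁻¹ - ((m + 1 + 1 : ℕ) : ℚ) ^ 2 * x⁻¹ - 40 * SS (m + 1 + 1) * x⁻¹ ^ 2 =
          ((((X (m + 2))⁻¹ + (X m)⁻¹ - 2 * (X (m + 1))⁻¹ - 2 * x⁻¹ - 40 * ((X (m + 1))⁻¹ * x⁻¹)) +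
            2 * ((X (m + 1))⁻¹ - ((m + 1 : ℕ) : ℚ) ^ 2 * x⁻¹ - 40 * SS (m + 1) * x⁻¹ ^ 2)) -
            ((X m)⁻¹ - (m : ℚ) ^ 2 * x⁻¹ - 40 * SS m * x⁻¹ ^ 2)) +
            (40 * x⁻¹ * ((X (m + 1))⁻¹ - ((m + 1 : ℕ) : ℚ) ^ 2 * x⁻¹ - 40 * SS (m + 1) * x⁻¹ ^ 2) +
            40 * 40 * SS (m + 1) * x⁻¹ ^ 3) := by
        have hSS : (SS (m + 1 + 1) : ℚ) = 2 * SS (m + 1) - SS m + ((m : ℚ) + 1) ^ 2 := by
          have : SS (m + 1 + 1) = 2 * SS (m + 1) - SS m + ((m : ℤ) + 1) ^ 2 := rfl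
          rw [this]; push_cast; ring
        rw [hSS]
        push_cast; ring
      rw [e]
      refine (padicNorm.nonarchimedean).trans (max_le ?_ ?_)
      · refine (padicNorm.sub).trans (max_le ((padicNorm.nonarchimedean).trans (max_le hr ?_)) i1)
        rw [padicNorm.mul]
        calc _ ≤ 1 * padicNorm p ((X (m + 1))⁻¹ - ((m + 1 : ℕ) : ℚ) ^ 2 * x⁻¹ -
              40 * SS (m + 1) * x⁻¹ ^ 2) :=
              mul_le_mul_of_nonneg_right n2 (padicNorm.nonneg _)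
          _ ≤ _ := by rw [one_mul]; exact i2
      · refine (padicNorm.nonarchimedean).trans (max_le ?_ ?_)
        · rw [padicNorm.mul, padicNorm.mul, nb]
          calc _ ≤ (1 * 1) * padicNorm p ((X (m + 1))⁻¹ - ((m + 1 : ℕ) : ℚ) ^ 2 * x⁻¹ -
                40 * SS (m + 1) * x⁻¹ ^ 2) := by
                apply mul_le_mul_of_nonneg_right _ (padicNorm.nonneg _)
                exact mul_le_mul n40 hBi.le hBi0.le (by norm_num)
            _ ≤ _ := by rw [one_mul, one_mul]; exact i2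
        · have e5 : (40 * 40 * SS (m + 1) * x⁻¹ ^ 3 : ℚ) =
              ((40 * 40 * SS (m + 1) : ℤ) : ℚ) * (x⁻¹ * x⁻¹ * x⁻¹) := by push_cast; ring
          rw [e5, padicNorm.mul, padicNorm.mul, padicNorm.mul, nb]
          have h5 := n_le_one p (40 * 40 * SS (m + 1))
          have e6 : 1 / B ^ 3 = 1 * (B⁻¹ * B⁻¹ * B⁻¹) := by field_simp
          rw [e6]
          exact mul_le_mul_of_nonneg_right h5 (by positivity)
  refine ⟨X n, hX n hn, hXB n hn, ?_⟩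
  have h1 := (hest n).1
  have e : x / X n - (n : ℚ) ^ 2 - 40 * SS n * x⁻¹ =
      x * ((X n)⁻¹ - (n : ℚ) ^ 2 * x⁻¹ - 40 * SS n * x⁻¹ ^ 2) := by
    have := hXne n hn
    (clear * - this hx0; field_simp)
  rw [e, padicNorm.mul]
  calc _ = padicNorm p ((X n)⁻¹ - (n : ℚ) ^ 2 * x⁻¹ - 40 * SS n * x⁻¹ ^ 2) * B ^ 3 := by
        rw [← hBdef]; ring
    _ ≤ 1 := h1

/-- a non-integral first coordinate has norm at least `p ^ 2` -/
lemma sq_le_norm {V : E.Point} {x : ℚ} (hV : HasX V x)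
    (hx : 1 < padicNorm p x) : (p : ℚ) ^ 2 ≤ padicNorm p x := by
  have hev := even_val p hV hx le_rfl
  have hx0 : x ≠ 0 := ne_zero_of_norm (by linarith only [hx]) le_rfl
  have hq1 : (1 : ℚ) < p := by exact_mod_cast hp.out.one_lt
  rw [norm_eq_zpow p hx0] at hx ⊢
  have h1 : (0 : ℤ) < -padicValRat p x := by
    by_contra hcon
    push Not at hcon
    have := zpow_le_one_of_nonpos₀ hq1.le hcon
    linarith only [this, hx]
  have h2 : ((p : ℚ) ^ 2) = (p : ℚ) ^ (2 : ℤ) := by norm_cast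
  rw [h2]
  apply zpow_le_zpow_right₀ hq1.le
  rw [Int.even_iff] at hev
  omega

/-- in the kernel of reduction, multiplication by a prime `r` divides the size of the
first coordinate exactly by `r ^ 2` -/
theorem norm_smul_prime {V : E.Point} {x x' : ℚ} (hV : HasX V x)
    (hx : 1 < padicNorm p x) (hne : ∀ m : ℕ, 1 ≤ m → m • V ≠ 0) {r : ℕ} (hr : r.Prime)
    (h' : HasX (r • V) x') : padicNorm p x' * padicNorm p r ^ 2 = padicNorm p x := by
  obtain ⟨z, hz, hzx, hc⟩ := sq_congr p hV hx hne hr.one_lt.le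
  obtain rfl := h'.unique hz
  have hB0 : 0 < padicNorm p x := by linarith only [hx]
  have hx'0 : x' ≠ 0 := ne_zero_of_norm hB0 hzx
  have hx0 : x ≠ 0 := ne_zero_of_norm hB0 le_rfl
  have hq1 : (1 : ℚ) < p := by exact_mod_cast hp.out.one_lt
  have hq0 : (0 : ℚ) < p := by linarith only [hq1]
  have hge := sq_le_norm p hV hx
  have nb : padicNorm p x⁻¹ = (padicNorm p x)⁻¹ := by
    rw [← one_div, padicNorm.div, padicNorm.one, one_div]
  have hinv : (padicNorm p x)⁻¹ ≤ ((p : ℚ) ^ 2)⁻¹ := inv_anti₀ (by positivity) hge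
  have hinv1 : ((p : ℚ) ^ 2)⁻¹ < 1 := inv_lt_one_of_one_lt₀ (one_lt_pow₀ hq1 (by norm_num))
  have e1 : padicNorm p ((r : ℚ) ^ 2) = padicNorm p r ^ 2 := by
    rw [sq, padicNorm.mul, sq]
  have hlow : ((p : ℚ) ^ 2)⁻¹ ≤ padicNorm p ((r : ℚ) ^ 2) := by
    rw [e1]
    by_cases h : p = r
    · rw [← h, padicNorm.padicNorm_p hp.out.one_lt, inv_pow]
    · have : Fact r.Prime := ⟨hr⟩
      rw [padicNorm.padicNorm_of_prime_of_ne h, one_pow]
      exact hinv1.le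
  have t1 : padicNorm p (x / x' - (r : ℚ) ^ 2 - 40 * SS r * x⁻¹) < padicNorm p ((r : ℚ) ^ 2) := by
    refine lt_of_lt_of_le ?_ hlow
    have h1 : padicNorm p (x / x' - (r : ℚ) ^ 2 - 40 * SS r * x⁻¹) ≤ (padicNorm p x ^ 2)⁻¹ := by
      rw [← one_div (padicNorm p x ^ 2), le_div_iff₀ (by positivity)]; exact hc
    refine h1.trans_lt ?_
    apply inv_strictAnti₀ (by positivity)
    have h2 : (1 : ℚ) < (p : ℚ) ^ 2 := one_lt_pow₀ hq1 (by norm_num)
    nlinarith only [h2, hge]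
  have t2 : padicNorm p (40 * SS r * x⁻¹) < padicNorm p ((r : ℚ) ^ 2) := by
    have e2 : (40 * SS r * x⁻¹ : ℚ) = ((40 * SS r : ℤ) : ℚ) * x⁻¹ := by push_cast; ring
    rw [e2, padicNorm.mul, nb]
    by_cases h : p = r
    · subst h
      have h3 : padicNorm p ((40 * SS p : ℤ) : ℚ) < 1 :=
        (padicNorm.int_lt_one_iff (p := p) (40 * SS p)).2 (SS_dvd hp.out)
      have h4 : 0 < (padicNorm p x)⁻¹ := by positivity
      calc _ < 1 * (padicNorm p x)⁻¹ := mul_lt_mul_of_pos_right h3 h4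
        _ ≤ ((p : ℚ) ^ 2)⁻¹ := by rw [one_mul]; exact hinv
        _ ≤ _ := hlow
    · have : Fact r.Prime := ⟨hr⟩
      rw [e1, padicNorm.padicNorm_of_prime_of_ne h, one_pow]
      have h3 := n_le_one p (40 * SS r)
      have h4 : 0 < (padicNorm p x)⁻¹ := by positivity
      nlinarith only [h3, h4, hinv, hinv1, padicNorm.nonneg (p := p) ((40 * SS r : ℤ) : ℚ)]
  have hlt : padicNorm p (x / x' - (r : ℚ) ^ 2) < padicNorm p ((r : ℚ) ^ 2) := by
    have e : x / x' - (r : ℚ) ^ 2 = (x / x' - (r : ℚ) ^ 2 - 40 * SS r * x⁻¹) + 40 * SS r * x⁻¹ := by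
      ring
    rw [e]
    exact (padicNorm.nonarchimedean).trans_lt (max_lt t1 t2)
  have h5 : padicNorm p (x / x') = padicNorm p ((r : ℚ) ^ 2) := by
    have e : x / x' = (r : ℚ) ^ 2 + (x / x' - (r : ℚ) ^ 2) := by ring
    rw [e]
    exact norm_add_left p hlt
  rw [padicNorm.div, sq ((r : ℚ)), padicNorm.mul, ← sq] at h5
  rw [div_eq_iff (padicNorm.nonzero hx'0)] at h5
  rw [h5]; ring

end

end Vale.Agent.P027.Q
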