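import Vale.Agent.P027.Q.Mul

/-! Multiples of `P0`: infinite order, valuations of the first coordinates, orders. -/

set_option linter.all false

namespace Vale.Agent.P027.Q

open Vale.Agent.P027

open Classical in
/-- the first coordinate (zero for the point at infinity) -/
noncomputable def xc (V : E.Point) : ℚ := if h : ∃ x, HasX V x then h.choose else 0

lemma xc_of_hasX {V : E.Point} {x : ℚ} (h : HasX V x) : xc V = x := by
  have h1 : ∃ x, HasX V x := ⟨x, h⟩
  rw [xc, dif_pos h1]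
  exact h1.choose_spec.unique h

lemma hasX_xc {V : E.Point} (h : V ≠ 0) : HasX V (xc V) := by
  obtain ⟨x, hx⟩ := exists_hasX h
  rw [xc_of_hasX hx]
  exact hx

lemma xc_zero : xc 0 = 0 := by
  rw [xc, dif_neg]
  rintro ⟨x, hx⟩
  exact not_hasX_zero hx

lemma xc_neg (V : E.Point) : xc (-V) = xc V := by
  by_cases h : V = 0
  · rw [h, neg_zero]
  · exact xc_of_hasX (hasX_xc h).neg

lemma hasX_dbl {n : ℤ} {x : ℚ} (h : HasX (n • P0) x) (hx : x ≠ 0) :
    HasX ((2 * n) • P0) ((x ^ 2 + 7) ^ 2 / (4 * (x ^ 3 + 10 * x ^ 2 - 7 * x))) := by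
  have := hasX_two_smul h hx
  rwa [← two_nsmul, ← natCast_zsmul, ← mul_zsmul] at this

lemma hasX_1 : HasX ((1 : ℤ) • P0) (-1) := by rw [one_zsmul]; exact hasX_P0

lemma hasX_2 : HasX ((2 : ℤ) • P0) 1 := by
  have := hasX_dbl hasX_1 (by norm_num)
  norm_num at this
  exact this

lemma hasX_4 : HasX ((4 : ℤ) • P0) 4 := by
  have := hasX_dbl hasX_2 (by norm_num)
  norm_num at this
  exact this

lemma hasX_8 : HasX ((8 : ℤ) • P0) (529 / 784) := by
  have := hasX_dbl hasX_4 (by norm_num)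
  norm_num at this
  exact this

lemma hasX_3 : HasX ((3 : ℤ) • P0) (-9) := by
  obtain ⟨s, d, hs, hd, -, hprod⟩ := hasX_add_sub hasX_2 hasX_1 (by norm_num)
  have e1 : (2 : ℤ) • P0 - (1 : ℤ) • P0 = (1 : ℤ) • P0 := by
    rw [sub_eq_add_neg, ← sub_zsmul]; norm_num
  have e2 : (2 : ℤ) • P0 + (1 : ℤ) • P0 = (3 : ℤ) • P0 := by
    rw [← add_zsmul]; norm_num
  rw [e1] at hd
  rw [e2] at hs
  have hd1 : d = -1 := hd.unique hasX_1
  rw [hd1] at hprod
  have : s = -9 := by linarith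
  rw [← this]
  exact hs

lemma hasX_6 : HasX ((6 : ℤ) • P0) (121 / 9) := by
  have := hasX_dbl hasX_3 (by norm_num)
  norm_num at this
  exact this

instance fact2 : Fact (Nat.Prime 2) := ⟨Nat.prime_two⟩

instance fact7 : Fact (Nat.Prime 7) := ⟨by norm_num⟩

lemma double_norm_two {a : ℚ} (ha : 1 < padicNorm 2 a) :
    padicNorm 2 ((a ^ 2 + 7) ^ 2 / (4 * (a ^ 3 + 10 * a ^ 2 - 7 * a))) = 4 * padicNorm 2 a := by
  have n7 : padicNorm 2 7 ≤ 1 := by exact_mod_cast n_le_one 2 7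
  have n4 : padicNorm 2 4 = (4 : ℚ)⁻¹ := by
    have := padicNorm.padicNorm_p (p := 2) (by norm_num)
    rw [show (4 : ℚ) = ((2 : ℕ) : ℚ) * ((2 : ℕ) : ℚ) by norm_num, padicNorm.mul, this]
    norm_num
  have h2 : 1 < padicNorm 2 (a * a) := by rw [padicNorm.mul]; nlinarith only [ha]
  have h3 : padicNorm 2 ((a ^ 2 + 7) ^ 2) = padicNorm 2 a ^ 4 := by
    rw [sq, sq, padicNorm.mul, norm_add_left 2 (by linarith), padicNorm.mul]
    ring
  rw [padicNorm.div, padicNorm.mul, h3, large_cubic 2 ha le_rfl, n4]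
  have ha0 : padicNorm 2 a ≠ 0 := by linarith
  field_simp

lemma pow_two_point (j : ℕ) : ∃ x, HasX ((8 * 2 ^ j : ℤ) • P0) x ∧ padicNorm 2 x = 16 * 4 ^ j := by
  induction j with
  | zero =>
    refine ⟨529 / 784, by simpa using hasX_8, ?_⟩
    have h1 : (529 / 784 : ℚ) = ((529 : ℤ) : ℚ) / (((49 : ℤ) : ℚ) * ((2 : ℕ) : ℚ) ^ 4) := by norm_num
    have h2 : padicNorm 2 (((2 : ℕ) : ℚ) ^ 4) = (16 : ℚ)⁻¹ := by
      have := padicNorm.padicNorm_p (p := 2) (by norm_num)
      rw [show (((2 : ℕ) : ℚ) ^ 4) = ((2 : ℕ) : ℚ) * ((2 : ℕ) : ℚ) * ((2 : ℕ) : ℚ) * ((2 : ℕ) : ℚ) by ring,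
        padicNorm.mul, padicNorm.mul, padicNorm.mul, this]
      norm_num
    rw [h1, padicNorm.div, padicNorm.mul, h2, (padicNorm.int_eq_one_iff 529).2 (by norm_num),
      (padicNorm.int_eq_one_iff 49).2 (by norm_num)]
    norm_num
  | succ j ih =>
    obtain ⟨x, hx, hn⟩ := ih
    have hx1 : 1 < padicNorm 2 x := by
      rw [hn]
      have : (1 : ℚ) ≤ 4 ^ j := one_le_pow₀ (by norm_num)
      linarith
    have hx0 : x ≠ 0 := by
      rintro rfl
      rw [padicNorm.zero] at hx1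
      linarith
    refine ⟨(x ^ 2 + 7) ^ 2 / (4 * (x ^ 3 + 10 * x ^ 2 - 7 * x)), ?_, ?_⟩
    · have := hasX_dbl hx hx0
      rw [show (2 * (8 * 2 ^ j) : ℤ) = 8 * 2 ^ (j + 1) by ring] at this
      exact this
    · rw [double_norm_two hx1, hn]; ring

/-- the generator has infinite order -/
theorem zsmul_P0_ne_zero {k : ℤ} (hk : k ≠ 0) : k • P0 ≠ 0 := by
  intro h
  have hm : NeZero k.natAbs := ⟨Int.natAbs_ne_zero.2 hk⟩
  have hper : ∀ a b : ℤ, ((a : ℤ) : ZMod k.natAbs) = ((b : ℤ) : ZMod k.natAbs) →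
      a • P0 = b • P0 := by
    intro a b hab
    rw [ZMod.intCast_eq_intCast_iff, Int.modEq_iff_dvd, Int.natAbs_dvd] at hab
    obtain ⟨c, hc⟩ := hab
    have : b = a + c * k := by linarith
    rw [this, add_zsmul, mul_zsmul, h, zsmul_zero, add_zero]
  obtain ⟨i, j, hij, he⟩ := Finite.exists_ne_map_eq_of_infinite
    (fun j : ℕ => (((8 * 2 ^ j : ℤ)) : ZMod k.natAbs))
  have h1 := hper _ _ (by exact_mod_cast he : (((8 * 2 ^ i : ℤ) : ℤ) : ZMod k.natAbs) = ((8 * 2 ^ j : ℤ) : ZMod k.natAbs))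
  obtain ⟨x, hx, hn⟩ := pow_two_point i
  obtain ⟨x', hx', hn'⟩ := pow_two_point j
  rw [h1] at hx
  have h2 := hx.unique hx'
  rw [h2, hn'] at hn
  have h3 : (4 : ℚ) ^ j = 4 ^ i := by linarith
  have h4 : j = i := pow_right_injective₀ (by norm_num : (0 : ℚ) < 4) (by norm_num) h3
  exact hij h4.symm

lemma zsmul_inj {m n : ℤ} (h : m • P0 = n • P0) : m = n := by
  by_contra hne
  have : (m - n) • P0 = 0 := by rw [sub_zsmul, h, add_neg_cancel]
  exact zsmul_P0_ne_zero (sub_ne_zero.2 hne) this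

lemma nsmul_P0_ne {m : ℤ} (hm : m ≠ 0) {n : ℕ} (hn : 1 ≤ n) : n • (m • P0) ≠ 0 := by
  rw [← natCast_zsmul, ← mul_zsmul]
  exact zsmul_P0_ne_zero (mul_ne_zero (by exact_mod_cast (by omega : n ≠ 0)) hm)

lemma hasX_n {n : ℤ} (hn : n ≠ 0) : HasX (n • P0) (xc (n • P0)) := hasX_xc (zsmul_P0_ne_zero hn)

/-- first coordinates of nonzero multiples are nonzero -/
lemma xc_ne_zero {n : ℤ} (hn : n ≠ 0) : xc (n • P0) ≠ 0 := by
  intro h
  obtain ⟨y, hy, e⟩ := hasX_n hn
  have hy0 : y = 0 := by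
    rw [h] at hy
    have : y ^ 2 = 0 := by rw [hy]; ring
    exact pow_eq_zero_iff (by norm_num) |>.1 this
  have e2 : n • P0 = T0 := by
    rw [e]; unfold T0
    exact pt_congr h hy0
  have e3 : (2 * n) • P0 = 0 := by
    have : (2 * n) • P0 = n • P0 + n • P0 := by rw [← add_zsmul]; congr 1; ring
    rw [this, e2, two_T0]
  exact zsmul_P0_ne_zero (mul_ne_zero two_ne_zero hn) e3

/-- multiplication by `m` -/
theorem norm_smul_nat (q : ℕ) [hq : Fact q.Prime] {V : E.Point}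
    (hne : ∀ m : ℕ, 1 ≤ m → m • V ≠ 0) (hx : 1 < padicNorm q (xc V)) :
    ∀ m : ℕ, m ≠ 0 → padicNorm q (xc (m • V)) * padicNorm q m ^ 2 = padicNorm q (xc V) := by
  intro m
  induction m using induction_on_primes with
  | zero => intro h; exact absurd rfl h
  | one => intro _; simp
  | prime_mul p a hp ih =>
    intro h
    have ha : a ≠ 0 := by rintro rfl; simp at h
    have ih' := ih ha
    have hna : padicNorm q (a : ℚ) ≤ 1 := padicNorm.of_nat (p := q) a
    have hna0 : 0 ≤ padicNorm q (a : ℚ) := padicNorm.nonneg _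
    have hx' : 1 < padicNorm q (xc (a • V)) := by
      by_contra hcon
      push Not at hcon
      have h0 : 0 ≤ padicNorm q (xc (a • V)) := padicNorm.nonneg _
      have h1 : padicNorm q (a : ℚ) ^ 2 ≤ 1 := by nlinarith
      nlinarith
    have hne' : ∀ m : ℕ, 1 ≤ m → m • (a • V) ≠ 0 := by
      intro m hm
      rw [← mul_nsmul']
      exact hne _ (Nat.mul_pos hm (Nat.pos_of_ne_zero ha))
    have hV : HasX (a • V) (xc (a • V)) := by
      apply hasX_xc
      exact hne a (Nat.pos_of_ne_zero ha)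
    have hV' : HasX (p • (a • V)) (xc (p • (a • V))) := by
      apply hasX_xc
      exact hne' p hp.one_lt.le
    have h2 := norm_smul_prime q hV hx' hne' hp hV'
    have e : (p * a) • V = p • (a • V) := mul_nsmul' V p a
    rw [e, Nat.cast_mul, padicNorm.mul, mul_pow, ← mul_assoc, h2]
    exact ih'

/-- multiples of the point `m₀ P0` in the kernel of reduction -/
theorem norm_smul_int (q : ℕ) [hq : Fact q.Prime] {m₀ : ℤ} (hm₀ : m₀ ≠ 0)
    (h : 1 < padicNorm q (xc (m₀ • P0))) {k : ℤ} (hk : k ≠ 0) :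
    padicNorm q (xc ((m₀ * k) • P0)) * padicNorm q k ^ 2 = padicNorm q (xc (m₀ • P0)) := by
  have hne : ∀ m : ℕ, 1 ≤ m → m • (m₀ • P0) ≠ 0 := fun m hm => nsmul_P0_ne hm₀ hm
  have h1 := norm_smul_nat q hne h k.natAbs (Int.natAbs_ne_zero.2 hk)
  have e1 : k.natAbs • (m₀ • P0) = (m₀ * k.natAbs) • P0 := by
    rw [← natCast_zsmul, ← mul_zsmul, mul_comm]
  rw [e1] at h1
  rcases Int.natAbs_eq k with h2 | h2
  · rw [h2]
    simpa using h1
  · have e2 : (m₀ * k) • P0 = -((m₀ * k.natAbs) • P0) := by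
      rw [← neg_zsmul]
      congr 1
      nth_rewrite 1 [h2]
      ring
    have e3 : padicNorm q (k : ℚ) = padicNorm q (k.natAbs : ℚ) := by
      have h3 : (k : ℚ) = -((k.natAbs : ℕ) : ℚ) := by
        have h4 : ((k : ℤ) : ℚ) = ((-(k.natAbs : ℤ) : ℤ) : ℚ) := congrArg _ h2
        rw [h4, Int.cast_neg, Int.cast_natCast]
      rw [h3, padicNorm.neg]
    rw [e2, xc_neg, e3]
    exact h1

theorem val_smul_int (q : ℕ) [hq : Fact q.Prime] {m₀ : ℤ} (hm₀ : m₀ ≠ 0)
    (h : 1 < padicNorm q (xc (m₀ • P0))) {k : ℤ} (hk : k ≠ 0) :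
    padicValRat q (xc ((m₀ * k) • P0)) =
      padicValRat q (xc (m₀ • P0)) - 2 * (padicValInt q k : ℤ) := by
  have h1 := norm_smul_int q hm₀ h hk
  have hB := xc_ne_zero hm₀
  have hk0 : (k : ℚ) ≠ 0 := by exact_mod_cast hk
  have hx := xc_ne_zero (mul_ne_zero hm₀ hk)
  have hq0 : (q : ℚ) ≠ 0 := by exact_mod_cast hq.out.ne_zero
  have hq1 : (1 : ℚ) < q := by exact_mod_cast hq.out.one_lt
  rw [norm_eq_zpow q hx, norm_eq_zpow q hB, norm_eq_zpow q hk0, ← zpow_natCast, ← zpow_mul,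
    ← zpow_add₀ hq0] at h1
  have h2 := zpow_right_injective₀ (by linarith) hq1.ne' h1
  rw [padicValRat.of_int] at h2
  push_cast at h2
  linarith

/-- points reducing to the origin -/
theorem exists_group (q : ℕ) (hq : q.Prime) : ∃ G : AddSubgroup E.Point, ∀ V x, HasX V x →
    (V ∈ G ↔ padicValRat q x < 0) := by
  have : Fact q.Prime := ⟨hq⟩
  have hq1 : (1 : ℚ) < q := by exact_mod_cast hq.one_lt
  refine ⟨GG q (q : ℚ) hq1, fun V x hV => ?_⟩
  rw [mem_GG_of_hasX q hq1 hV]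
  by_cases hx : x = 0
  · subst hx
    rw [padicNorm.zero, padicValRat.zero]
    constructor
    · intro h
      linarith only [hq1, h]
    · intro h
      omega
  · rw [norm_eq_zpow q hx]
    have h1 : ((q : ℚ) ≤ (q : ℚ) ^ (-padicValRat q x)) ↔ (1 : ℤ) ≤ -padicValRat q x := by
      conv_lhs => lhs; rw [← zpow_one (q : ℚ)]
      exact zpow_le_zpow_iff_right₀ hq1
    rw [h1]
    omega

/-- the order of `P0` modulo `q` -/
theorem exists_ord (q : ℕ) (hq : q.Prime) : ∃ M : ℕ, ∀ k : ℤ,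
    (k = 0 ∨ padicValRat q (xc (k • P0)) < 0) ↔ (M : ℤ) ∣ k := by
  obtain ⟨G, hG⟩ := exists_group q hq
  obtain ⟨M, hM⟩ := Int.subgroup_cyclic (G.comap (zmultiplesHom _ P0))
  refine ⟨M.natAbs, fun k => ?_⟩
  have h1 : k • P0 ∈ G ↔ k ∈ G.comap (zmultiplesHom _ P0) := by
    rw [AddSubgroup.mem_comap, zmultiplesHom_apply]
  rw [Int.natAbs_dvd, ← Int.mem_zmultiples_iff, AddSubgroup.zmultiples_eq_closure, ← hM, ← h1]
  constructor
  · rintro (h | h)
    · subst h; rw [zero_zsmul]; exact G.zero_mem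
    · by_cases hk : k = 0
      · subst hk; rw [zero_zsmul]; exact G.zero_mem
      · exact (hG _ _ (hasX_n hk)).2 h
  · intro h
    by_cases hk : k = 0
    · exact Or.inl hk
    · exact Or.inr ((hG _ _ (hasX_n hk)).1 h)


/-! ### valuations at three and seven -/

instance fact3' : Fact (Nat.Prime 3) := ⟨Nat.prime_three⟩

lemma val_six : padicValRat 3 (xc ((6 : ℤ) • P0)) = -2 := by
  rw [xc_of_hasX hasX_6]
  have h1 : (121 / 9 : ℚ) = ((121 : ℕ) : ℚ) / (((3 : ℕ) : ℚ) ^ 2) := by norm_num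
  rw [h1, padicValRat.div (by norm_num) (by norm_num), padicValRat.pow,
    vself Nat.prime_three, vnat_zero (by norm_num)]
  norm_num

lemma val_eight : padicValRat 7 (xc ((8 : ℤ) • P0)) = -2 := by
  rw [xc_of_hasX hasX_8]
  have h1 : (529 / 784 : ℚ) = ((529 : ℕ) : ℚ) / (((16 : ℕ) : ℚ) * ((7 : ℕ) : ℚ) ^ 2) := by norm_num
  rw [h1, padicValRat.div (by norm_num) (by norm_num), padicValRat.mul (by norm_num) (by norm_num),
    padicValRat.pow, vself (by norm_num), vnat_zero (by norm_num),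
    vnat_zero (by norm_num)]
  norm_num

lemma norm_gt_of_val_neg (q : ℕ) [hq : Fact q.Prime] {x : ℚ} (hx : x ≠ 0)
    (h : padicValRat q x < 0) : 1 < padicNorm q x := by
  rw [norm_eq_zpow q hx]
  exact one_lt_zpow₀ (by exact_mod_cast hq.out.one_lt) (by omega)

lemma val_neg_of_norm_gt (q : ℕ) [hq : Fact q.Prime] {x : ℚ} (h : 1 < padicNorm q x) :
    x ≠ 0 ∧ padicValRat q x < 0 := by
  have hx : x ≠ 0 := by
    rintro rfl
    rw [padicNorm.zero] at h
    linarith
  refine ⟨hx, ?_⟩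
  by_contra hcon
  push Not at hcon
  rw [norm_eq_zpow q hx] at h
  have h1 : (q : ℚ) ^ (-padicValRat q x) ≤ 1 :=
    zpow_le_one_of_nonpos₀ (by exact_mod_cast hq.out.one_lt.le) (by omega)
  linarith

theorem val_3 {k : ℤ} (hk : k ≠ 0) :
    padicValRat 3 (xc ((6 * k) • P0)) = -2 - 2 * (padicValInt 3 k : ℤ) := by
  rw [val_smul_int 3 (by norm_num) (norm_gt_of_val_neg 3 (xc_ne_zero (by norm_num))
    (by rw [val_six]; norm_num)) hk, val_six]

theorem val_7 {k : ℤ} (hk : k ≠ 0) :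
    padicValRat 7 (xc ((8 * k) • P0)) = -2 - 2 * (padicValInt 7 k : ℤ) := by
  rw [val_smul_int 7 (by norm_num) (norm_gt_of_val_neg 7 (xc_ne_zero (by norm_num))
    (by rw [val_eight]; norm_num)) hk, val_eight]

/-! ### orders -/

/-- the denominator of the first coordinate of `k P0` is divisible by `q` -/
def Dv (q : ℕ) (k : ℤ) : Prop := k = 0 ∨ padicValRat q (xc (k • P0)) < 0

/-- the order of `P0` modulo `q` -/
def Ord (q m : ℕ) : Prop := 0 < m ∧ ∀ k : ℤ, Dv q k ↔ (m : ℤ) ∣ k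

lemma Ord.unique {q m m' : ℕ} (h : Ord q m) (h' : Ord q m') : m = m' := by
  apply Nat.dvd_antisymm
  · exact Int.natCast_dvd_natCast.1 ((h.2 _).1 ((h'.2 _).2 dvd_rfl))
  · exact Int.natCast_dvd_natCast.1 ((h'.2 _).1 ((h.2 _).2 dvd_rfl))

lemma exists_Ord {q : ℕ} (hq : q.Prime) {k : ℤ} (hk : k ≠ 0) (h : Dv q k) : ∃ m, Ord q m := by
  obtain ⟨M, hM⟩ := exists_ord q hq
  refine ⟨M, ?_, hM⟩
  rcases Nat.eq_zero_or_pos M with h0 | h0
  · exfalso
    have := (hM k).1 h
    rw [h0, Nat.cast_zero, zero_dvd_iff] at this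
    exact hk this
  · exact h0

/-- the residues of the first coordinates of multiples up to half of the order are distinct -/
lemma res_ne {q : ℕ} (hq : q.Prime) (hq2 : q ≠ 2) (hq7 : q ≠ 7) {i j : ℤ} (hi : 0 < i)
    (hij : i < j) (h1 : ¬ Dv q i) (h2 : ¬ Dv q j) (h3 : ¬ Dv q (i + j)) (h4 : ¬ Dv q (j - i)) :
    padicNorm q (xc (i • P0) - xc (j • P0)) = 1 := by
  have : Fact q.Prime := ⟨hq⟩
  have hle : ∀ k : ℤ, ¬ Dv q k → padicNorm q (xc (k • P0)) ≤ 1 := by
    intro k hk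
    by_contra hcon
    push Not at hcon
    exact hk (Or.inr (val_neg_of_norm_gt q hcon).2)
  set a := xc (i • P0) with ha
  set b := xc (j • P0) with hb
  have hi0 : i ≠ 0 := by omega
  have hj0 : j ≠ 0 := by omega
  have hne : a ≠ b := by
    intro h
    have e1 := hasX_n hi0
    have e2 := hasX_n hj0
    rw [← ha, h] at e1
    rcases e1.eq_or_neg e2 with h5 | h5
    · have := zsmul_inj h5; omega
    · rw [← neg_zsmul] at h5
      have := zsmul_inj h5; omega
  obtain ⟨s, d, hs, hd, hsum, hprod⟩ := hasX_add_sub (hasX_n hi0) (hasX_n hj0) hne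
  rw [← add_zsmul] at hs
  rw [sub_eq_add_neg, ← sub_zsmul] at hd
  have hd' : d = xc ((j - i) • P0) := by
    rw [← xc_of_hasX hd, show (j - i) = -(i - j) by ring, neg_zsmul, xc_neg]
  have hs' : s = xc ((i + j) • P0) := (xc_of_hasX hs).symm
  have ns : padicNorm q s ≤ 1 := by rw [hs']; exact hle _ h3
  have nd : padicNorm q d ≤ 1 := by rw [hd']; exact hle _ h4
  have na := hle _ h1
  have nb := hle _ h2
  rw [← ha] at na hsum hprod
  rw [← hb] at nb hsum hprod
  have nab : padicNorm q (a - b) ≤ 1 := padicNorm.sub.trans (max_le na nb)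
  refine le_antisymm nab ?_
  by_contra hcon
  push Not at hcon
  -- everything is small
  have small_mul : ∀ {u v : ℚ}, padicNorm q u < 1 → padicNorm q v ≤ 1 → padicNorm q (u * v) < 1 := by
    intro u v hu hv
    rw [padicNorm.mul]
    have h0 := padicNorm.nonneg (p := q) u
    have h0' := padicNorm.nonneg (p := q) v
    nlinarith
  have small_add : ∀ {u v : ℚ}, padicNorm q u < 1 → padicNorm q v < 1 → padicNorm q (u + v) < 1 :=
    fun hu hv => lt_of_le_of_lt padicNorm.nonarchimedean (max_lt hu hv)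
  have small_neg : ∀ {u : ℚ}, padicNorm q u < 1 → padicNorm q (-u) < 1 := by
    intro u hu
    rwa [padicNorm.neg]
  have le_mul : ∀ {u v : ℚ}, padicNorm q u ≤ 1 → padicNorm q v ≤ 1 → padicNorm q (u * v) ≤ 1 := by
    intro u v hu hv
    rw [padicNorm.mul]
    exact mul_le_one₀ hu (padicNorm.nonneg _) hv
  have le_add : ∀ {u v : ℚ}, padicNorm q u ≤ 1 → padicNorm q v ≤ 1 → padicNorm q (u + v) ≤ 1 :=
    fun hu hv => padicNorm.nonarchimedean.trans (max_le hu hv)
  have hint : ∀ n : ℤ, padicNorm q (n : ℚ) ≤ 1 := fun n => padicNorm.of_int n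
  have p1 : padicNorm q ((a * b + 7) * (a * b + 7)) < 1 := by
    rw [← sq, ← hprod, sq]
    have : s * d * ((a - b) * (a - b)) = (a - b) * (s * d * (a - b)) := by ring
    rw [this]
    exact small_mul hcon (le_mul (le_mul ns nd) nab)
  have p2 : padicNorm q (a * b + 7) < 1 := by
    rw [padicNorm.mul] at p1
    have h0 := padicNorm.nonneg (p := q) (a * b + 7)
    nlinarith
  have p3 : padicNorm q (2 * ((a * b - 7) * (a + b) + 20 * (a * b))) < 1 := by
    rw [← hsum]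
    have : (s + d) * (a - b) ^ 2 = (a - b) * ((s + d) * (a - b)) := by ring
    rw [this]
    exact small_mul hcon (le_mul (le_add ns nd) nab)
  -- -28 (a + b) - 280 is small, hence -56 (a + 5) is small
  have p4 : padicNorm q (56 * (a + 5)) < 1 := by
    have e : 56 * (a + 5) = -(2 * ((a * b - 7) * (a + b) + 20 * (a * b))) +
        ((a * b + 7) * (2 * (a + b) + 40) + (a - b) * 28) := by ring
    rw [e]
    refine small_add (small_neg p3) (small_add (small_mul p2 ?_) (small_mul hcon ?_))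
    · exact le_add (le_mul (by exact_mod_cast hint 2) (le_add na nb)) (by exact_mod_cast hint 40)
    · exact_mod_cast hint 28
  have n56 : padicNorm q 56 = 1 := by
    have h5 : (56 : ℚ) = ((56 : ℤ) : ℚ) := by norm_num
    rw [h5, padicNorm.int_eq_one_iff]
    intro hdvd
    have h6 : q ∣ 2 ^ 3 * 7 := by exact_mod_cast hdvd
    rcases (hq.dvd_mul).1 h6 with h7 | h7
    · exact hq2 ((Nat.prime_dvd_prime_iff_eq hq Nat.prime_two).1 (hq.dvd_of_dvd_pow h7))
    · exact hq7 ((Nat.prime_dvd_prime_iff_eq hq (by norm_num)).1 h7)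
  have p5 : padicNorm q (a + 5) < 1 := by
    rw [padicNorm.mul, n56, one_mul] at p4
    exact p4
  have p6 : padicNorm q 32 < 1 := by
    have e : (32 : ℚ) = (a * b + 7) + ((a - b) * a + (a + 5) * (5 + -a)) := by ring
    rw [e]
    refine small_add p2 (small_add (small_mul hcon na) (small_mul p5 ?_))
    exact le_add (by exact_mod_cast hint 5) (by rw [padicNorm.neg]; exact na)
  have n32 : padicNorm q 32 = 1 := by
    have h5 : (32 : ℚ) = ((32 : ℤ) : ℚ) := by norm_num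
    rw [h5, padicNorm.int_eq_one_iff]
    intro hdvd
    have h6 : q ∣ 2 ^ 5 := by exact_mod_cast hdvd
    exact hq2 ((Nat.prime_dvd_prime_iff_eq hq Nat.prime_two).1 (hq.dvd_of_dvd_pow h6))
  rw [n32] at p6
  exact lt_irrefl _ p6

end Vale.Agent.P027.Q
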